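import Vale.Agent.P063.MathlibUsed
import Vale.Agent.P063.Defs
import Vale.Agent.P063.Stmt
import Vale.Agent.P063.MaxWidth

set_option linter.all false

section

section

set_option autoImplicit false
set_option linter.unusedSectionVars false
set_option linter.unusedVariables false

namespace Vale.Agent.P063

open Finset

/-- weight of one bit -/
def wt (p : ℝ) (b : Bool) : ℝ := if b then p else 1 - p

/-- normalised bit -/
noncomputable def phi (p : ℝ) (b : Bool) : ℝ :=
  ((if b then 1 else 0) - p) / Real.sqrt (p * (1 - p))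

section cube

variable {ι : Type*} [Fintype ι] [DecidableEq ι]

/-- product weight of a configuration -/
def W (p : ℝ) (x : ι → Bool) : ℝ := ∏ i, wt p (x i)

/-- expectation -/
def Ex (p : ℝ) (f : (ι → Bool) → ℝ) : ℝ := ∑ x, W p x * f x

/-- characters -/
noncomputable def chi (p : ℝ) (S : Finset ι) (x : ι → Bool) : ℝ := ∏ i ∈ S, phi p (x i)

/-- Fourier coefficients -/
noncomputable def fc (p : ℝ) (f : (ι → Bool) → ℝ) (S : Finset ι) : ℝ :=
  Ex p (fun x => f x * chi p S x)

/-- `z` on `A`, `x` off `A` -/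
def mix (A : Finset ι) (z x : ι → Bool) : ι → Bool := fun i => if i ∈ A then z i else x i

lemma wt_nonneg {p : ℝ} (h0 : 0 ≤ p) (h1 : p ≤ 1) (b : Bool) : 0 ≤ wt p b := by
  unfold wt; split_ifs <;> linarith

lemma W_nonneg {p : ℝ} (h0 : 0 ≤ p) (h1 : p ≤ 1) (x : ι → Bool) : 0 ≤ W p x :=
  Finset.prod_nonneg fun i _ => wt_nonneg h0 h1 _

lemma Ex_prod (p : ℝ) (g : ι → Bool → ℝ) :
    Ex p (fun x => ∏ i, g i (x i)) = ∏ i, (p * g i true + (1 - p) * g i false) := by
  have h := Finset.prod_univ_sum (fun _ : ι => (Finset.univ : Finset Bool))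
    (fun i b => wt p b * g i b)
  simp only [Fintype.piFinset_univ, Fintype.sum_bool] at h
  unfold Ex W
  simp only [← Finset.prod_mul_distrib]
  rw [← h]
  simp only [wt, ↓reduceIte, Bool.false_eq_true]

lemma Ex_const (p : ℝ) (c : ℝ) : Ex p (fun _ : ι → Bool => c) = c := by
  have h := Ex_prod (ι := ι) p (fun _ _ => 1)
  simp only [Finset.prod_const_one, mul_one] at h
  have h2 : Ex p (fun _ : ι → Bool => c) = c * Ex p (fun _ : ι → Bool => 1) := by
    unfold Ex
    rw [Finset.mul_sum]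
    refine Finset.sum_congr rfl fun x _ => by ring
  rw [h2, h]
  simp only [add_sub_cancel, prod_const_one, mul_one]

lemma Ex_add (p : ℝ) (f g : (ι → Bool) → ℝ) :
    Ex p (fun x => f x + g x) = Ex p f + Ex p g := by
  unfold Ex; rw [← Finset.sum_add_distrib]; exact Finset.sum_congr rfl fun x _ => by ring

lemma Ex_sub (p : ℝ) (f g : (ι → Bool) → ℝ) :
    Ex p (fun x => f x - g x) = Ex p f - Ex p g := by
  unfold Ex; rw [← Finset.sum_sub_distrib]; exact Finset.sum_congr rfl fun x _ => by ring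

lemma Ex_mul_left (p c : ℝ) (f : (ι → Bool) → ℝ) :
    Ex p (fun x => c * f x) = c * Ex p f := by
  unfold Ex; rw [Finset.mul_sum]; exact Finset.sum_congr rfl fun x _ => by ring

lemma Ex_mul_right (p c : ℝ) (f : (ι → Bool) → ℝ) :
    Ex p (fun x => f x * c) = Ex p f * c := by
  unfold Ex; rw [Finset.sum_mul]; exact Finset.sum_congr rfl fun x _ => by ring

lemma Ex_sum {α : Type*} (p : ℝ) (s : Finset α) (f : α → (ι → Bool) → ℝ) :
    Ex p (fun x => ∑ a ∈ s, f a x) = ∑ a ∈ s, Ex p (f a) := by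
  unfold Ex
  simp only [Finset.mul_sum]
  rw [Finset.sum_comm]

lemma Ex_mono {p : ℝ} (h0 : 0 ≤ p) (h1 : p ≤ 1) {f g : (ι → Bool) → ℝ}
    (h : ∀ x, f x ≤ g x) : Ex p f ≤ Ex p g :=
  Finset.sum_le_sum fun x _ => mul_le_mul_of_nonneg_left (h x) (W_nonneg h0 h1 x)

lemma Ex_nonneg {p : ℝ} (h0 : 0 ≤ p) (h1 : p ≤ 1) {f : (ι → Bool) → ℝ}
    (h : ∀ x, 0 ≤ f x) : 0 ≤ Ex p f :=
  Finset.sum_nonneg fun x _ => mul_nonneg (W_nonneg h0 h1 x) (h x)

/-- Cauchy–Schwarz -/
lemma Ex_cs {p : ℝ} (h0 : 0 ≤ p) (h1 : p ≤ 1) (f g : (ι → Bool) → ℝ) :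
    (Ex p (fun x => f x * g x)) ^ 2 ≤ Ex p (fun x => f x ^ 2) * Ex p (fun x => g x ^ 2) := by
  unfold Ex
  refine Finset.sum_sq_le_sum_mul_sum_of_sq_le_mul _ ?_ ?_ ?_
  · intro i _; exact mul_nonneg (W_nonneg h0 h1 i) (sq_nonneg _)
  · intro i _; exact mul_nonneg (W_nonneg h0 h1 i) (sq_nonneg _)
  · intro i _; apply le_of_eq; ring

/-- weighted Cauchy–Schwarz -/
lemma Ex_cs' {p : ℝ} (h0 : 0 ≤ p) (h1 : p ≤ 1) (u f : (ι → Bool) → ℝ) (hu : ∀ x, 0 ≤ u x) :
    (Ex p (fun x => u x * f x)) ^ 2 ≤ Ex p u * Ex p (fun x => u x * f x ^ 2) := by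
  unfold Ex
  refine Finset.sum_sq_le_sum_mul_sum_of_sq_le_mul _ ?_ ?_ ?_
  · intro i _; exact mul_nonneg (W_nonneg h0 h1 i) (hu _)
  · intro i _; exact mul_nonneg (W_nonneg h0 h1 i) (mul_nonneg (hu _) (sq_nonneg _))
  · intro i _; apply le_of_eq; ring

/-! ### moments of `phi` -/

lemma phi_mul_self_ne {p : ℝ} (h0 : 0 < p) (h1 : p < 1) : phi p true * phi p false = -1 := by
  have hs : 0 < p * (1 - p) := mul_pos h0 (by linarith)
  have h3 : (1 - p) ≠ 0 := by linarith
  unfold phi
  rw [div_mul_div_comm, Real.mul_self_sqrt hs.le]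
  simp only [↓reduceIte, Bool.false_eq_true, zero_sub, mul_neg]
  field_simp

lemma phi_mean {p : ℝ} : p * phi p true + (1 - p) * phi p false = 0 := by
  unfold phi
  simp only [↓reduceIte, Bool.false_eq_true, zero_sub]
  ring

lemma phi_true_sq {p : ℝ} (h0 : 0 < p) (h1 : p < 1) : phi p true ^ 2 = (1 - p) / p := by
  have hs : 0 < p * (1 - p) := mul_pos h0 (by linarith)
  unfold phi
  rw [div_pow, Real.sq_sqrt hs.le]
  have : (1 - p) ≠ 0 := by linarith only [h1]
  simp only [↓reduceIte]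
  field_simp

lemma phi_false_sq {p : ℝ} (h0 : 0 < p) (h1 : p < 1) : phi p false ^ 2 = p / (1 - p) := by
  have hs : 0 < p * (1 - p) := mul_pos h0 (by linarith)
  unfold phi
  rw [div_pow, Real.sq_sqrt hs.le]
  have : (1 - p) ≠ 0 := by linarith
  simp only [Bool.false_eq_true, ↓reduceIte, zero_sub, even_two, Even.neg_pow]
  field_simp

lemma phi_var {p : ℝ} (h0 : 0 < p) (h1 : p < 1) :
    p * phi p true ^ 2 + (1 - p) * phi p false ^ 2 = 1 := by
  rw [phi_true_sq h0 h1, phi_false_sq h0 h1]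
  have : (1 - p) ≠ 0 := by linarith
  field_simp
  ring

lemma phi_third {p : ℝ} (h0 : 0 < p) (h1 : p < 1) :
    (p * phi p true ^ 3 + (1 - p) * phi p false ^ 3) ^ 2 ≤ 1 / (p * (1 - p)) := by
  have hs : 0 < p * (1 - p) := mul_pos h0 (by linarith)
  have e1 : p * phi p true ^ 3 + (1 - p) * phi p false ^ 3
      = (1 - 2 * p) / Real.sqrt (p * (1 - p)) := by
    have : p * phi p true ^ 3 + (1 - p) * phi p false ^ 3
      = p * phi p true ^ 2 * phi p true + (1 - p) * phi p false ^ 2 * phi p false := by ring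
    rw [this, phi_true_sq h0 h1, phi_false_sq h0 h1]
    have h3 : (1 - p) ≠ 0 := by linarith
    have h4 : p ≠ 0 := h0.ne'
    have h5 : Real.sqrt (p * (1 - p)) ≠ 0 := (Real.sqrt_pos.2 hs).ne'
    unfold phi
    simp only [↓reduceIte, Bool.false_eq_true, zero_sub]
    field_simp
    ring
  rw [e1, div_pow, Real.sq_sqrt hs.le]
  apply div_le_div_of_nonneg_right _ hs.le
  nlinarith only [hs]

lemma phi_fourth {p : ℝ} (h0 : 0 < p) (h1 : p < 1) :
    p * phi p true ^ 4 + (1 - p) * phi p false ^ 4 ≤ 1 / (p * (1 - p)) := by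
  have hs : 0 < p * (1 - p) := mul_pos h0 (by linarith)
  have e1 : p * phi p true ^ 4 + (1 - p) * phi p false ^ 4
      = ((1 - p) ^ 3 + p ^ 3) / (p * (1 - p)) := by
    have : p * phi p true ^ 4 + (1 - p) * phi p false ^ 4
      = p * (phi p true ^ 2) ^ 2 + (1 - p) * (phi p false ^ 2) ^ 2 := by ring
    rw [this, phi_true_sq h0 h1, phi_false_sq h0 h1]
    have h3 : (1 - p) ≠ 0 := by linarith only [h1]
    have h4 : p ≠ 0 := h0.ne'
    field_simp
  rw [e1]
  apply div_le_div_of_nonneg_right _ hs.le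
  nlinarith only [hs]

/-! ### orthonormality and completeness -/

lemma chi_eq_prod (p : ℝ) (S : Finset ι) (x : ι → Bool) :
    chi p S x = ∏ i, (if i ∈ S then phi p (x i) else 1) := by
  unfold chi
  rw [Finset.prod_ite_mem, Finset.univ_inter]

lemma chi_empty (p : ℝ) (x : ι → Bool) : chi p (∅ : Finset ι) x = 1 := by simp [chi]

lemma Ex_chi_mul_chi {p : ℝ} (h0 : 0 < p) (h1 : p < 1) (S T : Finset ι) :
    Ex p (fun x => chi p S x * chi p T x) = if S = T then 1 else 0 := by
  have e : (fun x : ι → Bool => chi p S x * chi p T x)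
      = fun x => ∏ i, ((fun i b => (if i ∈ S then phi p b else 1) *
          (if i ∈ T then phi p b else 1)) i (x i)) := by
    funext x
    rw [chi_eq_prod, chi_eq_prod, ← Finset.prod_mul_distrib]
  rw [e, Ex_prod p (fun i b => (if i ∈ S then phi p b else 1) * (if i ∈ T then phi p b else 1))]
  split_ifs with h
  · subst h
    apply Finset.prod_eq_one
    intro i _
    by_cases hi : i ∈ S
    · simp only [hi, if_true]
      have := phi_var h0 h1
      linarith
    · simp [hi]
  · have : ∃ i, ¬ (i ∈ S ↔ i ∈ T) := by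
      by_contra hc
      push Not at hc
      exact h (Finset.ext fun i => hc i)
    obtain ⟨i, hi⟩ := this
    apply Finset.prod_eq_zero (Finset.mem_univ i)
    have hm := phi_mean (p := p)
    by_cases hS : i ∈ S
    · have hT : i ∉ T := fun hT => hi ⟨fun _ => hT, fun _ => hS⟩
      simp only [hS, hT, if_true, if_false, mul_one]
      linarith only [hm]
    · have hT : i ∈ T := by
        by_contra hT
        exact hi ⟨fun h => absurd h hS, fun h => absurd h hT⟩
      simp only [hS, hT, if_true, if_false, one_mul]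
      linarith only [hm]

lemma Ex_chi {p : ℝ} (h0 : 0 < p) (h1 : p < 1) (S : Finset ι) :
    Ex p (fun x => chi p S x) = if S = ∅ then 1 else 0 := by
  have := Ex_chi_mul_chi h0 h1 S ∅
  simpa [chi_empty] using this

lemma sum_chi_chi {p : ℝ} (h0 : 0 < p) (h1 : p < 1) (x y : ι → Bool) :
    W p y * ∑ S : Finset ι, chi p S y * chi p S x = if x = y then 1 else 0 := by
  have e : ∑ S : Finset ι, chi p S y * chi p S x = ∏ i, (1 + phi p (y i) * phi p (x i)) := by
    rw [Finset.prod_one_add]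
    rw [Finset.powerset_univ]
    refine Finset.sum_congr rfl fun S _ => ?_
    unfold chi
    rw [Finset.prod_mul_distrib]
  rw [e]
  unfold W
  rw [← Finset.prod_mul_distrib]
  have h3 : (1 - p) ≠ 0 := by linarith
  have h4 : p ≠ 0 := h0.ne'
  have key : ∀ a b : Bool, wt p b * (1 + phi p b * phi p a) = if a = b then 1 else 0 := by
    intro a b
    have hne := phi_mul_self_ne h0 h1
    have ht := phi_true_sq h0 h1
    have hf := phi_false_sq h0 h1
    cases a <;> cases b
    · have : phi p false * phi p false = p / (1 - p) := by rw [← hf]; ring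
      simp only [wt, this]
      simp only [Bool.false_eq_true, ↓reduceIte]
      field_simp
      ring
    · simp only [wt, hne]
      simp
    · have : phi p false * phi p true = -1 := by rw [mul_comm]; exact hne
      simp only [wt, this]
      simp
    · have : phi p true * phi p true = (1 - p) / p := by rw [← ht]; ring
      simp only [wt, this]
      simp only [↓reduceIte]
      field_simp
      ring
  simp only [key]
  split_ifs with h
  · subst h; simp only [↓reduceIte, prod_const_one]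
  · have : ∃ i, x i ≠ y i := by
      by_contra hc; push Not at hc; exact h (funext hc)
    obtain ⟨i, hi⟩ := this
    exact Finset.prod_eq_zero (Finset.mem_univ i) (by simp [hi])

/-- Fourier inversion -/
lemma inversion {p : ℝ} (h0 : 0 < p) (h1 : p < 1) (f : (ι → Bool) → ℝ) (x : ι → Bool) :
    f x = ∑ S : Finset ι, fc p f S * chi p S x := by
  unfold fc Ex
  simp only [Finset.sum_mul]
  rw [Finset.sum_comm]
  have : ∀ y : ι → Bool, ∑ S : Finset ι, W p y * (f y * chi p S y) * chi p S x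
      = f y * (if x = y then 1 else 0) := by
    intro y
    rw [← sum_chi_chi h0 h1 x y, Finset.mul_sum, Finset.mul_sum]
    refine Finset.sum_congr rfl fun S _ => by ring
  simp only [this]
  simp

/-- orthogonality of a family of characters -/
lemma Ex_sq_sum {α : Type*} [DecidableEq α] {p : ℝ} (h0 : 0 < p) (h1 : p < 1) (s : Finset α)
    (g : α → Finset ι) (hg : Set.InjOn g s) (c : α → ℝ) :
    Ex p (fun x => (∑ a ∈ s, c a * chi p (g a) x) ^ 2) = ∑ a ∈ s, c a ^ 2 := by
  have e : (fun x : ι → Bool => (∑ a ∈ s, c a * chi p (g a) x) ^ 2)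
      = fun x => ∑ a ∈ s, ∑ b ∈ s, (c a * c b) * (chi p (g a) x * chi p (g b) x) := by
    funext x
    rw [sq, Finset.sum_mul_sum]
    refine Finset.sum_congr rfl fun a _ => Finset.sum_congr rfl fun b _ => by ring
  rw [e, Ex_sum]
  refine Finset.sum_congr rfl fun a ha => ?_
  rw [Ex_sum]
  have : ∀ b ∈ s, Ex p (fun x : ι → Bool => (c a * c b) * (chi p (g a) x * chi p (g b) x))
      = if a = b then c a ^ 2 else 0 := by
    intro b hb
    rw [Ex_mul_left, Ex_chi_mul_chi h0 h1]
    by_cases hab : a = b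
    · subst hab; simp; ring
    · have : g a ≠ g b := fun h => hab (hg ha hb h)
      simp [hab, this]
  rw [Finset.sum_congr rfl this]
  simp [ha]

/-- Parseval -/
lemma parseval {p : ℝ} (h0 : 0 < p) (h1 : p < 1) (f : (ι → Bool) → ℝ) :
    Ex p (fun x => f x ^ 2) = ∑ S : Finset ι, fc p f S ^ 2 := by
  have := Ex_sq_sum h0 h1 (Finset.univ : Finset (Finset ι)) id (Set.injOn_id _) (fc p f)
  rw [← this]
  congr 1
  funext x
  rw [inversion h0 h1 f x]
  rfl

lemma fc_empty (p : ℝ) (f : (ι → Bool) → ℝ) : fc p f ∅ = Ex p f := by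
  unfold fc; simp [chi_empty]

end cube

end Vale.Agent.P063
end
end

section

section

set_option autoImplicit false
set_option linter.unusedSectionVars false
set_option linter.unusedVariables false

namespace Vale.Agent.P063

open Finset

section mixing

variable {ι : Type*} [Fintype ι] [DecidableEq ι]

lemma mix_mix (A : Finset ι) (z x : ι → Bool) : mix A (mix A x z) (mix A z x) = x := by
  funext i; unfold mix; by_cases h : i ∈ A <;> simp [h]

lemma W_mix (p : ℝ) (A : Finset ι) (z x : ι → Bool) :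
    W p (mix A z x) * W p (mix A x z) = W p x * W p z := by
  unfold W
  rw [← Finset.prod_mul_distrib, ← Finset.prod_mul_distrib]
  refine Finset.prod_congr rfl fun i _ => ?_
  unfold mix
  by_cases h : i ∈ A <;> simp [h]
  ring

/-- the swap involution on pairs -/
def swapEquiv (A : Finset ι) : ((ι → Bool) × (ι → Bool)) ≃ ((ι → Bool) × (ι → Bool)) where
  toFun q := (mix A q.2 q.1, mix A q.1 q.2)
  invFun q := (mix A q.2 q.1, mix A q.1 q.2)
  left_inv q := by
    ext1
    · exact mix_mix A q.2 q.1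
    · exact mix_mix A q.1 q.2
  right_inv q := by
    ext1
    · exact mix_mix A q.2 q.1
    · exact mix_mix A q.1 q.2

lemma Ex_swap (p : ℝ) (A : Finset ι) (H : (ι → Bool) → (ι → Bool) → ℝ) :
    Ex p (fun x => Ex p (fun z => H x z))
      = Ex p (fun x => Ex p (fun z => H (mix A z x) (mix A x z))) := by
  unfold Ex
  simp only [Finset.mul_sum]
  rw [← Finset.sum_product', ← Finset.sum_product']
  simp only [Finset.univ_product_univ]
  rw [← Equiv.sum_comp (swapEquiv A)]
  refine Finset.sum_congr rfl fun q _ => ?_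
  have := W_mix p A q.2 q.1
  simp only [swapEquiv, Equiv.coe_fn_mk]
  rw [← mul_assoc, ← mul_assoc, this]

/-- average over the coordinates in `A` -/
noncomputable def avg (p : ℝ) (A : Finset ι) (f : (ι → Bool) → ℝ) (x : ι → Bool) : ℝ :=
  Ex p (fun z => f (mix A z x))

lemma Ex_avg_mul (p : ℝ) (A : Finset ι) (f g : (ι → Bool) → ℝ) :
    Ex p (fun x => avg p A f x * g x) = Ex p (fun x => f x * avg p A g x) := by
  have h1 : Ex p (fun x => avg p A f x * g x)
      = Ex p (fun x => Ex p (fun z => f (mix A z x) * g x)) := by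
    unfold avg; simp only [Ex_mul_right]
  have h2 : Ex p (fun x => f x * avg p A g x)
      = Ex p (fun x => Ex p (fun z => f x * g (mix A z x))) := by
    unfold avg; simp only [Ex_mul_left]
  rw [h1, h2, Ex_swap p A]
  simp only [mix_mix]

lemma Ex_avg (p : ℝ) (A : Finset ι) (f : (ι → Bool) → ℝ) :
    Ex p (avg p A f) = Ex p f := by
  have h := Ex_avg_mul p A f (fun _ => 1)
  have e : avg p A (fun _ : ι → Bool => (1:ℝ)) = fun _ => 1 := by
    funext x; unfold avg; rw [Ex_const]
  rw [e] at h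
  simp only [mul_one] at h
  exact h

lemma mix_mix_left (A : Finset ι) (y z x : ι → Bool) : mix A y (mix A z x) = mix A y x := by
  funext i; unfold mix; by_cases h : i ∈ A <;> simp [h]

lemma avg_avg (p : ℝ) (A : Finset ι) (f : (ι → Bool) → ℝ) :
    avg p A (avg p A f) = avg p A f := by
  funext x
  unfold avg
  simp only [mix_mix_left, Ex_const]

lemma chi_mix (p : ℝ) (A S : Finset ι) (z x : ι → Bool) :
    chi p S (mix A z x) = chi p (S ∩ A) z * chi p (S \ A) x := by
  simp only [chi_eq_prod]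
  rw [← Finset.prod_mul_distrib]
  refine Finset.prod_congr rfl fun i _ => ?_
  unfold mix
  by_cases h : i ∈ A <;> by_cases h' : i ∈ S <;> simp [h, h']

lemma avg_chi {p : ℝ} (h0 : 0 < p) (h1 : p < 1) (A S : Finset ι) (x : ι → Bool) :
    avg p A (chi p S) x = if Disjoint S A then chi p S x else 0 := by
  unfold avg
  simp only [chi_mix, Ex_mul_right, Ex_chi h0 h1]
  by_cases h : Disjoint S A
  · have h' : S ∩ A = ∅ := Finset.disjoint_iff_inter_eq_empty.1 h
    have h'' : S \ A = S := Finset.sdiff_eq_self_of_disjoint h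
    simp [h, h', h'']
  · have h' : ¬ S ∩ A = ∅ := fun hc => h (Finset.disjoint_iff_inter_eq_empty.2 hc)
    simp [h, h']

lemma fc_avg {p : ℝ} (h0 : 0 < p) (h1 : p < 1) (A : Finset ι) (f : (ι → Bool) → ℝ)
    (T : Finset ι) : fc p (avg p A f) T = if Disjoint T A then fc p f T else 0 := by
  unfold fc
  rw [Ex_avg_mul]
  simp only [avg_chi h0 h1]
  by_cases h : Disjoint T A
  · simp [h]
  · simp [h, Ex_const]

/-- Restriction: Fourier coefficients of the restricted function. -/
lemma fc_restrict {p : ℝ} (h0 : 0 < p) (h1 : p < 1) (A : Finset ι) (f : (ι → Bool) → ℝ)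
    (x : ι → Bool) (T : Finset ι) :
    fc p (fun z => f (mix A z x)) T
      = ∑ S ∈ Finset.univ.filter (fun S : Finset ι => S ∩ A = T), fc p f S * chi p (S \ A) x := by
  have e : (fun z => f (mix A z x))
      = fun z => ∑ S : Finset ι, (fc p f S * chi p (S \ A) x) * chi p (S ∩ A) z := by
    funext z
    rw [inversion h0 h1 f (mix A z x)]
    refine Finset.sum_congr rfl fun S _ => ?_
    rw [chi_mix]; ring
  unfold fc at e ⊢
  rw [e]
  have e2 : (fun z : ι → Bool => (∑ S : Finset ι, (Ex p (fun x => f x * chi p S x) *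
      chi p (S \ A) x) * chi p (S ∩ A) z) * chi p T z)
      = fun z => ∑ S : Finset ι, (Ex p (fun x => f x * chi p S x) * chi p (S \ A) x) *
        (chi p (S ∩ A) z * chi p T z) := by
    funext z; rw [Finset.sum_mul]; refine Finset.sum_congr rfl fun S _ => by ring
  rw [e2, Ex_sum]
  simp only [Ex_mul_left, Ex_chi_mul_chi h0 h1]
  rw [Finset.sum_filter]
  refine Finset.sum_congr rfl fun S _ => ?_
  by_cases h : S ∩ A = T <;> simp [h]

/-- average over the outside configuration of the squared restricted coefficient -/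
lemma Ex_fc_restrict_sq {p : ℝ} (h0 : 0 < p) (h1 : p < 1) (A : Finset ι)
    (f : (ι → Bool) → ℝ) (T : Finset ι) :
    Ex p (fun x => (fc p (fun z => f (mix A z x)) T) ^ 2)
      = ∑ S ∈ Finset.univ.filter (fun S : Finset ι => S ∩ A = T), fc p f S ^ 2 := by
  simp only [fc_restrict h0 h1 A f]
  refine Ex_sq_sum h0 h1 _ (fun S => S \ A) ?_ (fc p f)
  intro S hS S' hS' h
  simp only [Finset.coe_filter, Finset.mem_univ, true_and, Set.mem_ofPred_eq] at hS hS'
  have h2 : S \ A = S' \ A := h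
  rw [← Finset.sdiff_union_inter S A, ← Finset.sdiff_union_inter S' A, h2, hS, hS']

/-- summed over a family `𝒯` -/
lemma Ex_sum_fc_restrict_sq {p : ℝ} (h0 : 0 < p) (h1 : p < 1) (A : Finset ι)
    (f : (ι → Bool) → ℝ) (𝒯 : Finset (Finset ι)) :
    Ex p (fun x => ∑ T ∈ 𝒯, (fc p (fun z => f (mix A z x)) T) ^ 2)
      = ∑ S ∈ Finset.univ.filter (fun S : Finset ι => S ∩ A ∈ 𝒯), fc p f S ^ 2 := by
  rw [Ex_sum]
  simp only [Ex_fc_restrict_sq h0 h1]
  rw [← Finset.sum_fiberwise_of_maps_to (s := Finset.univ.filter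
    (fun S : Finset ι => S ∩ A ∈ 𝒯)) (t := 𝒯) (g := fun S => S ∩ A)]
  · refine Finset.sum_congr rfl fun T hT => ?_
    refine Finset.sum_congr ?_ fun _ _ => rfl
    ext S
    simp only [Finset.mem_filter, Finset.mem_univ, true_and]
    constructor
    · intro h; exact ⟨h ▸ hT, h⟩
    · intro h; exact h.2
  · intro S hS
    simpa using hS

/-! ### Boolean functions -/

lemma avg_nonneg {p : ℝ} (h0 : 0 ≤ p) (h1 : p ≤ 1) (A : Finset ι) {f : (ι → Bool) → ℝ}
    (hf : ∀ x, 0 ≤ f x) (x : ι → Bool) : 0 ≤ avg p A f x :=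
  Ex_nonneg h0 h1 fun z => hf _

lemma avg_le_one {p : ℝ} (h0 : 0 ≤ p) (h1 : p ≤ 1) (A : Finset ι) {f : (ι → Bool) → ℝ}
    (hf : ∀ x, f x ≤ 1) (x : ι → Bool) : avg p A f x ≤ 1 := by
  unfold avg
  calc Ex p (fun z => f (mix A z x)) ≤ Ex p (fun _ : ι → Bool => (1:ℝ)) :=
        Ex_mono h0 h1 fun z => hf _
    _ = 1 := Ex_const p 1

/-- for Boolean `F`, `E|F - avg F| = 2 E (F - avg F)^2`. -/
lemma Ex_abs_sub_avg {p : ℝ} (h0 : 0 ≤ p) (h1 : p ≤ 1) (B : Finset ι) {F : (ι → Bool) → ℝ}
    (hF : ∀ x, F x = 0 ∨ F x = 1) :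
    Ex p (fun x => |F x - avg p B F x|) = 2 * Ex p (fun x => (F x - avg p B F x) ^ 2) := by
  have hF0 : ∀ x, 0 ≤ F x := fun x => by rcases hF x with h | h <;> simp [h]
  have hF1 : ∀ x, F x ≤ 1 := fun x => by rcases hF x with h | h <;> simp [h]
  have hq0 := fun x => avg_nonneg h0 h1 B hF0 x
  have hq1 := fun x => avg_le_one h0 h1 B hF1 x
  have e1 : (fun x => |F x - avg p B F x|)
      = fun x => (F x + avg p B F x) - 2 * (F x * avg p B F x) := by
    funext x
    rcases hF x with h | h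
    · rw [h, zero_sub, abs_neg, abs_of_nonneg (hq0 x)]; ring
    · rw [h, abs_of_nonneg (by linarith only [hq1 x])]; ring
  have e2 : (fun x => (F x - avg p B F x) ^ 2)
      = fun x => (F x + avg p B F x * avg p B F x) - 2 * (F x * avg p B F x) := by
    funext x
    have : F x ^ 2 = F x := by rcases hF x with h | h <;> simp [h]
    linarith
  have e3 : Ex p (fun x => F x * avg p B F x) = Ex p (fun x => avg p B F x * avg p B F x) := by
    rw [Ex_avg_mul p B F (avg p B F), avg_avg]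
  rw [e1, e2, Ex_sub, Ex_sub, Ex_add, Ex_add, Ex_mul_left, e3]
  have e4 : Ex p (fun x => avg p B F x) = Ex p F := Ex_avg p B F
  have e5 : Ex p (fun x => F x) = Ex p F := rfl
  rw [e4]
  ring

lemma Ex_sq_sub_avg {p : ℝ} (h0 : 0 < p) (h1 : p < 1) (B : Finset ι) (F : (ι → Bool) → ℝ) :
    Ex p (fun x => (F x - avg p B F x) ^ 2)
      = ∑ T ∈ Finset.univ.filter (fun T : Finset ι => ¬ Disjoint T B), fc p F T ^ 2 := by
  rw [parseval h0 h1 (fun x => F x - avg p B F x), Finset.sum_filter]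
  refine Finset.sum_congr rfl fun T _ => ?_
  have : fc p (fun x => F x - avg p B F x) T = fc p F T - fc p (avg p B F) T := by
    unfold fc
    rw [← Ex_sub]
    congr 1
    funext x
    ring
  rw [this, fc_avg h0 h1]
  by_cases h : Disjoint T B <;> simp [h]

end mixing

end Vale.Agent.P063
end
end

section

section

set_option autoImplicit false
set_option linter.unusedSectionVars false
set_option linter.unusedVariables false

namespace Vale.Agent.P063

open Finset

section bonami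

variable {ι : Type*} [Fintype ι] [DecidableEq ι]

/-- independence of one coordinate -/
lemma Ex_coord_mul (p : ℝ) (a : ι) (u : Bool → ℝ) (H : (ι → Bool) → ℝ)
    (hH : ∀ z x, H (mix {a} z x) = H x) :
    Ex p (fun x => u (x a) * H x) = (p * u true + (1 - p) * u false) * Ex p H := by
  have h1 : Ex p (fun x => u (x a) * H x)
      = Ex p (fun x => Ex p (fun z : ι → Bool => u (x a) * H x)) := by
    simp only [Ex_const]
  rw [h1, Ex_swap p {a}]
  simp only [hH]
  have h2 : ∀ z x : ι → Bool, mix {a} z x a = z a := by intro z x; simp [mix]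
  simp only [h2, Ex_mul_right]
  have h3 : Ex p (fun z : ι → Bool => u (z a)) = p * u true + (1 - p) * u false := by
    have e : (fun z : ι → Bool => u (z a))
        = fun z => ∏ i, ((fun i b => if i = a then u b else 1) i (z i)) := by
      funext z
      simp only [prod_ite_eq', mem_univ, ↓reduceIte]
    rw [e, Ex_prod p (fun i b => if i = a then u b else 1)]
    rw [Finset.prod_eq_single a]
    · simp
    · intro b _ hb; simp [hb]
    · intro h; exact absurd (Finset.mem_univ a) h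
  simp only [h3, Ex_mul_left]

/-- The `(2,4)` inequality. -/
theorem bonami {p : ℝ} (h0 : 0 < p) (h1 : p < 1) (A : Finset ι) :
    ∀ c : Finset ι → ℝ,
      Ex p (fun x => (∑ T ∈ A.powerset, c T * chi p T x) ^ 4)
        ≤ (∑ T ∈ A.powerset, (2 / Real.sqrt (p * (1 - p))) ^ T.card * c T ^ 2) ^ 2 := by
  have hs : 0 < p * (1 - p) := mul_pos h0 (by linarith)
  set s := Real.sqrt (p * (1 - p)) with hsdef
  have hspos : 0 < s := Real.sqrt_pos.2 hs
  have hs2 : s ^ 2 = p * (1 - p) := Real.sq_sqrt hs.le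
  have hK4 : 4 ≤ 2 / s := by
    rw [le_div_iff₀ hspos]
    have : s ≤ 1 / 2 := by
      rw [hsdef]
      apply Real.sqrt_le_iff.2
      constructor
      · norm_num
      · nlinarith only [sq_nonneg (p - 1 / 2)]
    linarith only [this]
  have hK2 : 3 / (p * (1 - p)) ≤ (2 / s) ^ 2 := by
    rw [div_pow, hs2]
    apply div_le_div_of_nonneg_right _ hs.le
    norm_num
  set K := 2 / s with hK
  have hKpos : 0 < K := by positivity
  induction A using Finset.induction_on with
  | empty =>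
    intro c
    simp only [powerset_empty, sum_singleton, chi_empty, mul_one, Ex_const, card_empty, pow_zero, one_mul]
    apply le_of_eq; ring
  | insert a A ha ih =>
    intro c
    have hsplit : ∀ x : ι → Bool, ∑ T ∈ (insert a A).powerset, c T * chi p T x
        = (∑ T ∈ A.powerset, c T * chi p T x)
          + phi p (x a) * ∑ T ∈ A.powerset, c (insert a T) * chi p T x := by
      intro x
      rw [Finset.sum_powerset_insert ha, Finset.mul_sum]
      congr 1
      refine Finset.sum_congr rfl fun T hT => ?_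
      have haT : a ∉ T := fun h => ha (Finset.mem_powerset.1 hT h)
      unfold chi
      rw [Finset.prod_insert haT]
      ring
    have hsplit2 : ∑ T ∈ (insert a A).powerset, K ^ T.card * c T ^ 2
        = (∑ T ∈ A.powerset, K ^ T.card * c T ^ 2)
          + K * ∑ T ∈ A.powerset, K ^ T.card * c (insert a T) ^ 2 := by
      rw [Finset.sum_powerset_insert ha, Finset.mul_sum]
      congr 1
      refine Finset.sum_congr rfl fun T hT => ?_
      have haT : a ∉ T := fun h => ha (Finset.mem_powerset.1 hT h)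
      rw [Finset.card_insert_of_notMem haT]
      ring
    set g0 : (ι → Bool) → ℝ := fun x => ∑ T ∈ A.powerset, c T * chi p T x with hg0
    set g1 : (ι → Bool) → ℝ := fun x => ∑ T ∈ A.powerset, c (insert a T) * chi p T x with hg1
    set α : ℝ := ∑ T ∈ A.powerset, K ^ T.card * c T ^ 2 with hα
    set β : ℝ := ∑ T ∈ A.powerset, K ^ T.card * c (insert a T) ^ 2 with hβ
    have hα0 : 0 ≤ α := Finset.sum_nonneg fun T _ => by (clear * - h0 h1; positivity)
    have hβ0 : 0 ≤ β := Finset.sum_nonneg fun T _ => by (clear * - h0 h1; positivity)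
    have i0 : Ex p (fun x => g0 x ^ 4) ≤ α ^ 2 := ih c
    have i1 : Ex p (fun x => g1 x ^ 4) ≤ β ^ 2 := ih (fun T => c (insert a T))
    have inv : ∀ (d : Finset ι → ℝ) (z x : ι → Bool),
        ∑ T ∈ A.powerset, d T * chi p T (mix {a} z x) = ∑ T ∈ A.powerset, d T * chi p T x := by
      intro d z x
      refine Finset.sum_congr rfl fun T hT => ?_
      have haT : a ∉ T := fun h => ha (Finset.mem_powerset.1 hT h)
      congr 1
      unfold chi
      refine Finset.prod_congr rfl fun i hi => ?_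
      have : i ≠ a := fun h => haT (h ▸ hi)
      simp [mix, this]
    have inv0 : ∀ z x, g0 (mix {a} z x) = g0 x := fun z x => inv c z x
    have inv1 : ∀ z x, g1 (mix {a} z x) = g1 x := fun z x => inv (fun T => c (insert a T)) z x
    have hexp : Ex p (fun x => (∑ T ∈ (insert a A).powerset, c T * chi p T x) ^ 4)
        = Ex p (fun x => g0 x ^ 4) + 6 * Ex p (fun x => g0 x ^ 2 * g1 x ^ 2)
          + 4 * (p * phi p true ^ 3 + (1 - p) * phi p false ^ 3) * Ex p (fun x => g0 x * g1 x ^ 3)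
          + (p * phi p true ^ 4 + (1 - p) * phi p false ^ 4) * Ex p (fun x => g1 x ^ 4) := by
      have e : (fun x => (∑ T ∈ (insert a A).powerset, c T * chi p T x) ^ 4)
          = fun x => ((((g0 x ^ 4) + 4 * (phi p (x a) * (g0 x ^ 3 * g1 x)))
            + 6 * (phi p (x a) ^ 2 * (g0 x ^ 2 * g1 x ^ 2)))
            + 4 * (phi p (x a) ^ 3 * (g0 x * g1 x ^ 3)))
            + (phi p (x a) ^ 4 * g1 x ^ 4) := by
        funext x
        rw [hsplit x]
        simp only [hg0, hg1]
        ring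
      rw [e, Ex_add, Ex_add, Ex_add, Ex_add, Ex_mul_left, Ex_mul_left, Ex_mul_left]
      rw [Ex_coord_mul p a (fun b => phi p b) (fun x => g0 x ^ 3 * g1 x)
        (by intro z x; simp only [inv0, inv1])]
      rw [Ex_coord_mul p a (fun b => phi p b ^ 2) (fun x => g0 x ^ 2 * g1 x ^ 2)
        (by intro z x; simp only [inv0, inv1])]
      rw [Ex_coord_mul p a (fun b => phi p b ^ 3) (fun x => g0 x * g1 x ^ 3)
        (by intro z x; simp only [inv0, inv1])]
      rw [Ex_coord_mul p a (fun b => phi p b ^ 4) (fun x => g1 x ^ 4)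
        (by intro z x; simp only [inv1])]
      rw [phi_mean, phi_var h0 h1]
      ring
    set m3 := p * phi p true ^ 3 + (1 - p) * phi p false ^ 3 with hm3
    set m4 := p * phi p true ^ 4 + (1 - p) * phi p false ^ 4 with hm4
    have hm3' : m3 ^ 2 ≤ 1 / (p * (1 - p)) := phi_third h0 h1
    have hm4' : m4 ≤ 1 / (p * (1 - p)) := phi_fourth h0 h1
    have E4nn : 0 ≤ Ex p (fun x => g1 x ^ 4) := Ex_nonneg h0.le h1.le fun x => by (clear * -; positivity)
    have h22nn : 0 ≤ Ex p (fun x => g0 x ^ 2 * g1 x ^ 2) :=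
      Ex_nonneg h0.le h1.le fun x => by (clear * -; positivity)
    have h22 : Ex p (fun x => g0 x ^ 2 * g1 x ^ 2) ≤ α * β := by
      have := Ex_cs h0.le h1.le (fun x => g0 x ^ 2) (fun x => g1 x ^ 2)
      have e1 : (fun x => (g0 x ^ 2) ^ 2) = fun x => g0 x ^ 4 := by funext x; ring
      have e2 : (fun x => (g1 x ^ 2) ^ 2) = fun x => g1 x ^ 4 := by funext x; ring
      rw [e1, e2] at this
      have h3 : (Ex p (fun x => g0 x ^ 2 * g1 x ^ 2)) ^ 2 ≤ (α * β) ^ 2 := by
        calc _ ≤ _ := this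
          _ ≤ α ^ 2 * β ^ 2 := mul_le_mul i0 i1 E4nn (sq_nonneg _)
          _ = _ := by ring
      exact (pow_le_pow_iff_left₀ h22nn (by (clear * - h0 h1; positivity)) (by norm_num)).1 h3
    have h13 : 4 * m3 * Ex p (fun x => g0 x * g1 x ^ 3)
        ≤ 2 * Ex p (fun x => g0 x ^ 2 * g1 x ^ 2) + 2 * m3 ^ 2 * Ex p (fun x => g1 x ^ 4) := by
      rw [← Ex_mul_left, ← Ex_mul_left, ← Ex_mul_left, ← Ex_add]
      refine Ex_mono h0.le h1.le fun x => ?_
      nlinarith only [mul_nonneg (sq_nonneg (g1 x)) (sq_nonneg (g0 x - m3 * g1 x))]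
    rw [hexp, hsplit2]
    have hpq : 0 ≤ 1 / (p * (1 - p)) := by positivity
    have hfin : Ex p (fun x => g0 x ^ 4) + 6 * Ex p (fun x => g0 x ^ 2 * g1 x ^ 2)
          + 4 * m3 * Ex p (fun x => g0 x * g1 x ^ 3) + m4 * Ex p (fun x => g1 x ^ 4)
        ≤ α ^ 2 + 8 * (α * β) + 3 / (p * (1 - p)) * β ^ 2 := by
      have t1 : (2 * m3 ^ 2 + m4) * Ex p (fun x => g1 x ^ 4)
          ≤ (3 / (p * (1 - p))) * β ^ 2 := by
        apply mul_le_mul _ i1 E4nn (by positivity)
        have : 3 / (p * (1 - p)) = 2 * (1 / (p * (1 - p))) + 1 / (p * (1 - p)) := by ring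
        rw [this]; linarith only [hm3', hm4']
      have t2 : (2 * m3 ^ 2 + m4) * Ex p (fun x => g1 x ^ 4)
          = 2 * m3 ^ 2 * Ex p (fun x => g1 x ^ 4) + m4 * Ex p (fun x => g1 x ^ 4) := by ring
      rw [t2] at t1
      linarith only [i0, h22, h13, t1]
    refine hfin.trans ?_
    have hb2 : 3 / (p * (1 - p)) * β ^ 2 ≤ K ^ 2 * β ^ 2 :=
      mul_le_mul_of_nonneg_right hK2 (sq_nonneg _)
    have hab : 8 * (α * β) ≤ 2 * K * (α * β) := by
      apply mul_le_mul_of_nonneg_right _ (by (clear * - h0 h1; positivity))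
      linarith only [hK4]
    have hsq : (α + K * β) ^ 2 = α ^ 2 + 2 * K * (α * β) + K ^ 2 * β ^ 2 := by ring
    rw [hsq]
    linarith only [hb2, hab]

/-- Low degree version. -/
theorem bonami_low {p : ℝ} (h0 : 0 < p) (h1 : p < 1) (𝒯 : Finset (Finset ι)) (d : ℕ)
    (hd : ∀ T ∈ 𝒯, T.card ≤ d) (c : Finset ι → ℝ) :
    Ex p (fun x => (∑ T ∈ 𝒯, c T * chi p T x) ^ 4)
      ≤ (4 / (p * (1 - p))) ^ d * (∑ T ∈ 𝒯, c T ^ 2) ^ 2 := by
  have hs : 0 < p * (1 - p) := mul_pos h0 (by linarith only [h1])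
  have hspos : 0 < Real.sqrt (p * (1 - p)) := Real.sqrt_pos.2 hs
  have hs2 : Real.sqrt (p * (1 - p)) ^ 2 = p * (1 - p) := Real.sq_sqrt hs.le
  have hK1 : 1 ≤ 2 / Real.sqrt (p * (1 - p)) := by
    rw [le_div_iff₀ hspos]
    have : Real.sqrt (p * (1 - p)) ≤ 1 / 2 := by
      apply Real.sqrt_le_iff.2
      constructor
      · norm_num
      · nlinarith only [sq_nonneg (p - 1 / 2)]
    linarith only [this]
  have hB := bonami h0 h1 (Finset.univ : Finset ι) (fun T => if T ∈ 𝒯 then c T else 0)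
  have e1 : ∀ x : ι → Bool, ∑ T ∈ (Finset.univ : Finset ι).powerset,
      (if T ∈ 𝒯 then c T else 0) * chi p T x = ∑ T ∈ 𝒯, c T * chi p T x := by
    intro x
    rw [Finset.powerset_univ]
    simp only [ite_mul, zero_mul]
    rw [Finset.sum_ite_mem, Finset.univ_inter]
  simp only [e1] at hB
  refine hB.trans ?_
  have e2 : ∑ T ∈ (Finset.univ : Finset ι).powerset,
      (2 / Real.sqrt (p * (1 - p))) ^ T.card * (if T ∈ 𝒯 then c T else 0) ^ 2
      = ∑ T ∈ 𝒯, (2 / Real.sqrt (p * (1 - p))) ^ T.card * c T ^ 2 := by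
    rw [Finset.powerset_univ]
    have : ∀ T : Finset ι, (2 / Real.sqrt (p * (1 - p))) ^ T.card *
        (if T ∈ 𝒯 then c T else 0) ^ 2
        = if T ∈ 𝒯 then (2 / Real.sqrt (p * (1 - p))) ^ T.card * c T ^ 2 else 0 := by
      intro T; by_cases h : T ∈ 𝒯 <;> simp [h]
    simp only [this]
    rw [Finset.sum_ite_mem, Finset.univ_inter]
  rw [e2]
  have e3 : ∑ T ∈ 𝒯, (2 / Real.sqrt (p * (1 - p))) ^ T.card * c T ^ 2
      ≤ (2 / Real.sqrt (p * (1 - p))) ^ d * ∑ T ∈ 𝒯, c T ^ 2 := by
    rw [Finset.mul_sum]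
    refine Finset.sum_le_sum fun T hT => ?_
    exact mul_le_mul_of_nonneg_right (pow_le_pow_right₀ hK1 (hd T hT)) (sq_nonneg _)
  have e4 : 0 ≤ ∑ T ∈ 𝒯, (2 / Real.sqrt (p * (1 - p))) ^ T.card * c T ^ 2 :=
    Finset.sum_nonneg fun T _ => by (clear * - h0 h1; positivity)
  calc _ ≤ ((2 / Real.sqrt (p * (1 - p))) ^ d * ∑ T ∈ 𝒯, c T ^ 2) ^ 2 :=
        pow_le_pow_left₀ e4 e3 2
    _ = _ := by
        rw [mul_pow, ← pow_mul, mul_comm d 2, pow_mul, div_pow, hs2]
        norm_num

end bonami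

end Vale.Agent.P063
end
end

section

section

set_option autoImplicit false
set_option linter.unusedSectionVars false
set_option linter.unusedVariables false

namespace Vale.Agent.P063

open Finset

section key

variable {ι : Type*} [Fintype ι] [DecidableEq ι]

/-- Small influence forces small low-degree weight. -/
theorem key {p : ℝ} (h0 : 0 < p) (h1 : p < 1) (F : (ι → Bool) → ℝ)
    (hF : ∀ x, F x = 0 ∨ F x = 1) (B : Finset ι) (𝒯 : Finset (Finset ι)) (d : ℕ)
    (hd : ∀ T ∈ 𝒯, T.card ≤ d) (hB : ∀ T ∈ 𝒯, ¬ Disjoint T B) :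
    (∑ T ∈ 𝒯, fc p F T ^ 2) ^ 2
      ≤ 4 * (4 / (p * (1 - p))) ^ d *
        (∑ T ∈ Finset.univ.filter (fun T : Finset ι => ¬ Disjoint T B), fc p F T ^ 2) ^ 3 := by
  have hs : 0 < p * (1 - p) := mul_pos h0 (by linarith)
  set w := ∑ T ∈ 𝒯, fc p F T ^ 2 with hw
  set j := ∑ T ∈ Finset.univ.filter (fun T : Finset ι => ¬ Disjoint T B), fc p F T ^ 2 with hj
  set κ := (4 / (p * (1 - p))) ^ d with hκ
  have hκ0 : 0 ≤ κ := by positivity
  have hw0 : 0 ≤ w := Finset.sum_nonneg fun T _ => sq_nonneg _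
  have hj0 : 0 ≤ j := Finset.sum_nonneg fun T _ => sq_nonneg _
  set G : (ι → Bool) → ℝ := fun x => F x - avg p B F x with hG
  set h : (ι → Bool) → ℝ := fun x => ∑ T ∈ 𝒯, fc p F T * chi p T x with hh
  have hG2 : Ex p (fun x => G x ^ 2) = j := Ex_sq_sub_avg h0 h1 B F
  have hG1 : Ex p (fun x => |G x|) = 2 * j := by
    rw [← hG2]; exact Ex_abs_sub_avg h0.le h1.le B hF
  have hGh : Ex p (fun x => G x * h x) = w := by
    have e : (fun x => G x * h x)
        = fun x => ∑ T ∈ 𝒯, fc p F T * ((F x * chi p T x) - avg p B F x * chi p T x) := by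
      funext x
      simp only [hG, hh]
      rw [Finset.mul_sum]
      refine Finset.sum_congr rfl fun T _ => by ring
    rw [e, Ex_sum, hw]
    refine Finset.sum_congr rfl fun T hT => ?_
    rw [Ex_mul_left, Ex_sub]
    have e2 : Ex p (fun x => avg p B F x * chi p T x) = 0 := by
      have := fc_avg h0 h1 B F T
      rw [if_neg (hB T hT)] at this
      exact this
    rw [e2]
    have e3 : Ex p (fun x => F x * chi p T x) = fc p F T := rfl
    rw [e3]; ring
  have hh4 : Ex p (fun x => h x ^ 4) ≤ κ * w ^ 2 := bonami_low h0 h1 𝒯 d hd (fc p F)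
  have s1 : w ^ 2 ≤ (2 * j) * Ex p (fun x => |G x| * h x ^ 2) := by
    have := Ex_cs' h0.le h1.le (fun x => |G x|) (fun x => (SignType.sign (G x) : ℝ) * h x)
      (fun x => abs_nonneg _)
    rw [hG1] at this
    have e : (fun x => |G x| * ((SignType.sign (G x) : ℝ) * h x)) = fun x => G x * h x := by
      funext x
      rw [← mul_assoc, abs_mul_sign]
    rw [e, hGh] at this
    refine this.trans ?_
    apply mul_le_mul_of_nonneg_left _ (by (clear * -; positivity))
    refine Ex_mono h0.le h1.le fun x => ?_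
    apply mul_le_mul_of_nonneg_left _ (abs_nonneg _)
    rw [mul_pow]
    have : (SignType.sign (G x) : ℝ) ^ 2 ≤ 1 := by
      rcases lt_trichotomy (G x) 0 with hx | hx | hx
      · simp only [sign_neg hx, SignType.coe_neg, SignType.coe_one, even_two, Even.neg_pow, one_pow, Std.le_refl]
      · simp only [hx, sign_zero, SignType.coe_zero, ne_eq, OfNat.ofNat_ne_zero, not_false_eq_true, zero_pow, zero_le_one]
      · simp [sign_pos hx]
    nlinarith only [this]
  have s2 : (Ex p (fun x => |G x| * h x ^ 2)) ^ 2 ≤ j * (κ * w ^ 2) := by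
    have := Ex_cs h0.le h1.le (fun x => |G x|) (fun x => h x ^ 2)
    have e1 : (fun x => |G x| ^ 2) = fun x => G x ^ 2 := by funext x; exact sq_abs _
    have e2 : (fun x => (h x ^ 2) ^ 2) = fun x => h x ^ 4 := by funext x; ring
    rw [e1, e2, hG2] at this
    exact this.trans (mul_le_mul_of_nonneg_left hh4 hj0)
  have s3 : (w ^ 2) ^ 2 ≤ (4 * κ * j ^ 3) * w ^ 2 := by
    have hm : 0 ≤ Ex p (fun x => |G x| * h x ^ 2) :=
      Ex_nonneg h0.le h1.le fun x => by (clear * -; positivity)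
    calc (w ^ 2) ^ 2 ≤ ((2 * j) * Ex p (fun x => |G x| * h x ^ 2)) ^ 2 :=
          pow_le_pow_left₀ (sq_nonneg _) s1 2
      _ = (2 * j) ^ 2 * (Ex p (fun x => |G x| * h x ^ 2)) ^ 2 := by ring
      _ ≤ (2 * j) ^ 2 * (j * (κ * w ^ 2)) := mul_le_mul_of_nonneg_left s2 (sq_nonneg _)
      _ = _ := by ring
  rcases eq_or_lt_of_le hw0 with hz | hpos
  · rw [← hz]
    have : 0 ≤ 4 * κ * j ^ 3 := by (clear * - h0 h1; positivity)
    simpa only [ne_eq, OfNat.ofNat_ne_zero, not_false_eq_true, zero_pow, ge_iff_le] using this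
  · have hw2 : 0 < w ^ 2 := by (clear * - hpos; positivity)
    have : w ^ 2 * w ^ 2 ≤ (4 * κ * j ^ 3) * w ^ 2 := by rw [← sq]; exact s3
    exact le_of_mul_le_mul_right this hw2

/-- relabelling the coordinates -/
lemma Ex_relabel (p : ℝ) (τ : Equiv.Perm ι) (g : (ι → Bool) → ℝ) :
    Ex p (fun x => g (fun i => x (τ i))) = Ex p g := by
  unfold Ex
  have := Equiv.sum_comp (Equiv.arrowCongr τ (Equiv.refl Bool)).symm
    (fun x => W p x * g x)
  rw [← this]
  refine Finset.sum_congr rfl fun x _ => ?_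
  have hW : W p ((Equiv.arrowCongr τ (Equiv.refl Bool)).symm x) = W p x := by
    unfold W
    simp only [Equiv.arrowCongr_symm, Equiv.arrowCongr_apply, Equiv.refl_symm, Equiv.coe_refl,
      Function.comp_apply, id_eq, Equiv.symm_symm]
    exact Equiv.prod_comp τ (fun i => wt p (x i))
  rw [hW]
  rfl

lemma fc_relabel (p : ℝ) (τ : Equiv.Perm ι) (F : (ι → Bool) → ℝ)
    (hF : ∀ x, F (fun i => x (τ i)) = F x) (T : Finset ι) :
    fc p F (T.map τ.toEmbedding) = fc p F T := by
  unfold fc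
  rw [← Ex_relabel p τ (fun x => F x * chi p T x)]
  congr 1
  funext x
  rw [hF]
  congr 1
  unfold chi
  rw [Finset.prod_map]
  rfl

end key

end Vale.Agent.P063
end
end

section

section

set_option autoImplicit false
set_option linter.unusedSectionVars false
set_option linter.unusedVariables false

namespace Vale.Agent.P063

open Finset

section russo

variable {ι : Type*} [Fintype ι] [DecidableEq ι]

lemma Ex_single (p : ℝ) (i : ι) (h : Bool → ℝ) :
    Ex p (fun z : ι → Bool => h (z i)) = p * h true + (1 - p) * h false := by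
  have := Ex_coord_mul p i h (fun _ => 1) (fun _ _ => rfl)
  simpa [Ex_const] using this

lemma avg_single (p : ℝ) (i : ι) (g : (ι → Bool) → ℝ) (x : ι → Bool) :
    avg p {i} g x
      = p * g (Function.update x i true) + (1 - p) * g (Function.update x i false) := by
  have h : ∀ z : ι → Bool, mix {i} z x = Function.update x i (z i) := by
    intro z
    funext k
    by_cases hk : k = i
    · subst hk; simp [mix]
    · simp [mix, hk]
  unfold avg
  simp only [h]
  exact Ex_single p i (fun b => g (Function.update x i b))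

/-- variance influence of a monotone Boolean function -/
lemma infl_eq {p : ℝ} (h0 : 0 < p) (h1 : p < 1) (f : (ι → Bool) → ℝ)
    (hf : ∀ x, f x = 0 ∨ f x = 1) (hmono : ∀ x y, x ≤ y → f x ≤ f y) (i : ι) :
    Ex p (fun x => (f x - avg p {i} f x) ^ 2) = Real.sqrt (p * (1 - p)) * fc p f {i} := by
  have hs : 0 < p * (1 - p) := mul_pos h0 (by linarith)
  have hspos : 0 < Real.sqrt (p * (1 - p)) := Real.sqrt_pos.2 hs
  rw [← Ex_avg p {i} (fun x => (f x - avg p {i} f x) ^ 2)]
  unfold fc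
  rw [← Ex_avg p {i} (fun x => f x * chi p {i} x), ← Ex_mul_left]
  congr 1
  funext x
  rw [avg_single, avg_single, avg_single, avg_single]
  simp only [Function.update_idem, chi, Finset.prod_singleton, Function.update_self]
  have hle : f (Function.update x i false) ≤ f (Function.update x i true) := by
    apply hmono
    intro k
    by_cases hk : k = i
    · subst hk; simp
    · simp [hk]
  have hsq : (f (Function.update x i true) - f (Function.update x i false)) ^ 2
      = f (Function.update x i true) - f (Function.update x i false) := by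
    rcases hf (Function.update x i true) with h | h
    · rcases hf (Function.update x i false) with h' | h'
      · rw [h, h']; norm_num
      · rw [h, h'] at hle; norm_num at hle
    · rcases hf (Function.update x i false) with h' | h'
      · rw [h, h']; norm_num
      · rw [h, h']; norm_num
  have e1 : Real.sqrt (p * (1 - p)) * phi p true = 1 - p := by
    unfold phi; field_simp; simp
  have e2 : Real.sqrt (p * (1 - p)) * phi p false = - p := by
    unfold phi; field_simp; simp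
  generalize f (Function.update x i true) = a at *
  generalize f (Function.update x i false) = b at *
  have e3 : Real.sqrt (p * (1 - p)) * (p * (a * phi p true) + (1 - p) * (b * phi p false))
      = p * a * (Real.sqrt (p * (1 - p)) * phi p true)
        + (1 - p) * b * (Real.sqrt (p * (1 - p)) * phi p false) := by ring
  rw [e3, e1, e2]
  have e4 : p * (a - (p * a + (1 - p) * b)) ^ 2 + (1 - p) * (b - (p * a + (1 - p) * b)) ^ 2
      = p * (1 - p) * (a - b) ^ 2 := by ring
  rw [e4, hsq]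
  ring

lemma hasDerivAt_wt (p : ℝ) (b : Bool) :
    HasDerivAt (fun q => wt q b) (if b then 1 else -1) p := by
  cases b
  · simp only [wt]
    simpa only [Bool.false_eq_true, ↓reduceIte, id_eq] using (hasDerivAt_id p).const_sub 1
  · simp only [wt]
    simpa using hasDerivAt_id' p

lemma wt_mul_phi {p : ℝ} (h0 : 0 < p) (h1 : p < 1) (b : Bool) :
    wt p b * (phi p b / Real.sqrt (p * (1 - p))) = if b then 1 else -1 := by
  have hs : 0 < p * (1 - p) := mul_pos h0 (by linarith)
  have hspos : 0 < Real.sqrt (p * (1 - p)) := Real.sqrt_pos.2 hs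
  have h3 : (1 - p) ≠ 0 := by linarith
  unfold phi
  rw [div_div, Real.mul_self_sqrt hs.le]
  cases b
  · simp only [wt, Bool.false_eq_true, ↓reduceIte, zero_sub]; field_simp
  · simp only [wt, ↓reduceIte]; (clear * - h0 h3; field_simp)

/-- Margulis–Russo -/
lemma hasDerivAt_Ex {p : ℝ} (h0 : 0 < p) (h1 : p < 1) (f : (ι → Bool) → ℝ) :
    HasDerivAt (fun q => Ex q f) ((1 / Real.sqrt (p * (1 - p))) * ∑ i, fc p f {i}) p := by
  have hW : ∀ x : ι → Bool, HasDerivAt (fun q => W q x)
      (∑ i, W p x * (phi p (x i) / Real.sqrt (p * (1 - p)))) p := by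
    intro x
    have h := HasDerivAt.fun_finsetProd (u := (Finset.univ : Finset ι))
      (f := fun i q => wt q (x i)) (f' := fun i => if x i then (1:ℝ) else -1) (x := p)
      (fun i _ => hasDerivAt_wt p (x i))
    have he : ∑ i, W p x * (phi p (x i) / Real.sqrt (p * (1 - p)))
        = ∑ i, (∏ j ∈ Finset.univ.erase i, wt p (x j)) • (if x i then (1:ℝ) else -1) := by
      refine Finset.sum_congr rfl fun i _ => ?_
      unfold W
      rw [← Finset.mul_prod_erase Finset.univ (fun i => wt p (x i)) (Finset.mem_univ i),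
        smul_eq_mul, ← wt_mul_phi h0 h1 (x i)]
      ring
    rw [he]
    exact h
  have hsum : HasDerivAt (fun q => Ex q f)
      (∑ x : ι → Bool, (∑ i, W p x * (phi p (x i) / Real.sqrt (p * (1 - p)))) * f x) p := by
    unfold Ex
    exact HasDerivAt.fun_sum fun x _ => (hW x).mul_const (f x)
  convert hsum using 1
  unfold fc Ex
  rw [Finset.mul_sum]
  simp only [Finset.mul_sum, Finset.sum_mul]
  rw [Finset.sum_comm]
  refine Finset.sum_congr rfl fun x _ => Finset.sum_congr rfl fun i _ => ?_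
  simp only [chi, Finset.prod_singleton]
  ring

/-- Total influence identity: `∑ |S| fc(S)^2 = p (1-p) * derivative`. -/
theorem sum_card_fc {p : ℝ} (h0 : 0 < p) (h1 : p < 1) (f : (ι → Bool) → ℝ)
    (hf : ∀ x, f x = 0 ∨ f x = 1) (hmono : ∀ x y, x ≤ y → f x ≤ f y) :
    ∑ S : Finset ι, (S.card : ℝ) * fc p f S ^ 2
      = p * (1 - p) * ((1 / Real.sqrt (p * (1 - p))) * ∑ i, fc p f {i}) := by
  have hs : 0 < p * (1 - p) := mul_pos h0 (by linarith)
  have hspos : 0 < Real.sqrt (p * (1 - p)) := Real.sqrt_pos.2 hs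
  have e1 : ∑ S : Finset ι, (S.card : ℝ) * fc p f S ^ 2
      = ∑ i : ι, ∑ S ∈ Finset.univ.filter (fun S : Finset ι => ¬ Disjoint S {i}),
        fc p f S ^ 2 := by
    simp only [Finset.sum_filter]
    rw [Finset.sum_comm]
    refine Finset.sum_congr rfl fun S _ => ?_
    simp only [Finset.disjoint_singleton_right, not_not]
    rw [Finset.sum_ite_mem, Finset.univ_inter, Finset.sum_const, nsmul_eq_mul]
  rw [e1]
  simp only [← Ex_sq_sub_avg h0 h1]
  simp only [infl_eq h0 h1 f hf hmono]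
  rw [← Finset.mul_sum, ← mul_assoc]
  congr 1
  rw [mul_one_div]
  rw [eq_div_iff hspos.ne', Real.mul_self_sqrt hs.le]

/-- combined statement -/
theorem russo {p : ℝ} (h0 : 0 < p) (h1 : p < 1) (f : (ι → Bool) → ℝ)
    (hf : ∀ x, f x = 0 ∨ f x = 1) (hmono : ∀ x y, x ≤ y → f x ≤ f y) :
    ∃ D : ℝ, HasDerivAt (fun q => Ex q f) D p ∧
      ∑ S : Finset ι, (S.card : ℝ) * fc p f S ^ 2 = p * (1 - p) * D :=
  ⟨_, hasDerivAt_Ex h0 h1 f, sum_card_fc h0 h1 f hf hmono⟩

end russo

end Vale.Agent.P063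
end
end

section

section

set_option autoImplicit false
set_option linter.unusedSectionVars false
set_option linter.unusedVariables false

namespace Vale.Agent.P063

open Finset

/-- Action of a vertex permutation on `r`-subsets. -/
def edgePerm {n : ℕ} (r : ℕ) (σ : Equiv.Perm (Fin n)) : Equiv.Perm (Edge n r) where
  toFun e := permEdge σ e
  invFun e := ⟨e.1.map σ.symm.toEmbedding, by rw [Finset.card_map]; exact e.2⟩
  left_inv e := by
    apply Subtype.ext
    ext a
    simp [permEdge]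
  right_inv e := by
    apply Subtype.ext
    ext a
    simp [permEdge]

section sym

variable {n r : ℕ}

/-- edges meeting `X` -/
def EX (r : ℕ) (X : Finset (Fin n)) : Finset (Edge n r) :=
  Finset.univ.filter (fun e => ¬ Disjoint e.1 X)

/-- edges containing `v` -/
def EV (r : ℕ) (v : Fin n) : Finset (Edge n r) :=
  Finset.univ.filter (fun e => v ∈ e.1)

/-- families of at most `d` edges all meeting `X` exactly in `v` -/
def TV (r d : ℕ) (X : Finset (Fin n)) (v : Fin n) : Finset (Finset (Edge n r)) :=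
  Finset.univ.filter (fun T => T.Nonempty ∧ T.card ≤ d ∧ ∀ e ∈ T, e.1 ∩ X = {v})

lemma mem_edgePerm_iff (σ : Equiv.Perm (Fin n)) (e : Edge n r) (a : Fin n) :
    a ∈ (edgePerm r σ e).1 ↔ σ.symm a ∈ e.1 := by
  simp only [edgePerm, permEdge, Equiv.coe_fn_mk, mem_map_equiv]

/-- The weight of `TV` is the same for all vertices of `X`. -/
lemma TV_weight_eq (p : ℝ) (f : (Edge n r → Bool) → ℝ)
    (hinv : ∀ (σ : Equiv.Perm (Fin n)) x, f (fun e => x (edgePerm r σ e)) = f x)
    (d : ℕ) (X : Finset (Fin n)) (u v : Fin n) (hu : u ∈ X) (hv : v ∈ X)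
    (x : Edge n r → Bool) :
    ∑ T ∈ TV r d X u, fc p (fun z => f (mix (EX r X) z x)) T ^ 2
      = ∑ T ∈ TV r d X v, fc p (fun z => f (mix (EX r X) z x)) T ^ 2 := by
  set σ : Equiv.Perm (Fin n) := Equiv.swap u v with hσ
  set τ := edgePerm r σ with hτ
  have hσX : ∀ a, σ a ∈ X ↔ a ∈ X := by
    intro a
    by_cases ha : a = u
    · subst ha; simp [hσ, hu, hv]
    · by_cases hb : a = v
      · subst hb; simp [hσ, hu, hv]
      · rw [hσ, Equiv.swap_apply_of_ne_of_ne ha hb]
  have hσs : σ.symm = σ := by simp [hσ]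
  have hτX : ∀ e, τ e ∈ EX r X ↔ e ∈ EX r X := by
    intro e
    simp only [EX, Finset.mem_filter, Finset.mem_univ, true_and, not_iff_not]
    rw [Finset.disjoint_left, Finset.disjoint_left]
    constructor
    · intro h a ha haX
      have h1 : σ a ∈ (τ e).1 := by
        rw [hτ, mem_edgePerm_iff]; simpa using ha
      exact h h1 ((hσX a).2 haX)
    · intro h a ha haX
      rw [hτ, mem_edgePerm_iff, hσs] at ha
      exact h ha ((hσX a).2 haX)
  have hτfix : ∀ e, e ∉ EX r X → τ e = e := by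
    intro e he
    simp only [EX, Finset.mem_filter, Finset.mem_univ, true_and, not_not] at he
    rw [Finset.disjoint_left] at he
    apply Subtype.ext
    ext a
    rw [hτ, mem_edgePerm_iff, hσs]
    by_cases ha : a = u
    · subst ha
      have h1 : σ a = v := by simp [hσ]
      rw [h1]
      exact ⟨fun h => absurd hv (he h), fun h => absurd hu (he h)⟩
    · by_cases hb : a = v
      · subst hb
        have h1 : σ a = u := by simp [hσ]
        rw [h1]
        exact ⟨fun h => absurd hu (he h), fun h => absurd hv (he h)⟩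
      · rw [hσ, Equiv.swap_apply_of_ne_of_ne ha hb]
  have hF : ∀ z : Edge n r → Bool, f (mix (EX r X) (fun i => z (τ i)) x)
      = f (mix (EX r X) z x) := by
    intro z
    rw [← hinv σ (mix (EX r X) z x)]
    congr 1
    funext e
    by_cases he : e ∈ EX r X
    · have he' : τ e ∈ EX r X := (hτX e).2 he
      simp only [mix, he, if_true]
      rw [← hτ]
      simp [he']
    · have he' : τ e = e := hτfix e he
      simp only [mix, he, if_false]
      rw [← hτ, he']
      simp [he]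
  have hfc := fc_relabel p τ (fun z => f (mix (EX r X) z x)) hF
  refine Finset.sum_equiv (Equiv.finsetCongr τ) ?_ ?_
  · intro T
    simp only [TV, Finset.mem_filter, Finset.mem_univ, true_and, Equiv.finsetCongr_apply,
      Finset.map_nonempty, Finset.card_map]
    have hmem : ∀ e : Edge n r, (τ e).1 ∩ X = {v} ↔ e.1 ∩ X = {u} := by
      intro e
      have hσu : σ u = v := by simp [hσ]
      constructor
      · intro h
        ext a
        have h2 : a ∈ e.1 ∩ X ↔ σ a ∈ (τ e).1 ∩ X := by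
          rw [Finset.mem_inter, Finset.mem_inter, hσX, hτ, mem_edgePerm_iff]
          simp
        rw [h2, h, Finset.mem_singleton, Finset.mem_singleton]
        constructor
        · intro h3; rw [← hσu] at h3; exact σ.injective h3
        · intro h3; rw [h3, hσu]
      · intro h
        ext a
        have h2 : a ∈ (τ e).1 ∩ X ↔ σ a ∈ e.1 ∩ X := by
          rw [Finset.mem_inter, Finset.mem_inter, hσX, hτ, mem_edgePerm_iff, hσs]
        rw [h2, h, Finset.mem_singleton, Finset.mem_singleton]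
        have hσv : σ v = u := by simp [hσ]
        constructor
        · intro h3; rw [← hσv] at h3; exact σ.injective h3
        · intro h3; rw [h3, hσv]
    constructor
    · rintro ⟨h1, h2, h3⟩
      refine ⟨h1, h2, ?_⟩
      intro e he
      rw [Finset.mem_map] at he
      obtain ⟨e', he', rfl⟩ := he
      exact (hmem e').2 (h3 e' he')
    · rintro ⟨h1, h2, h3⟩
      refine ⟨h1, h2, ?_⟩
      intro e he
      exact (hmem e).1 (h3 _ (Finset.mem_map_of_mem _ he))
  · intro T _
    rw [Equiv.finsetCongr_apply, hfc]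

/-- Each of the equal weights is at most `1/|X|`. -/
lemma TV_weight_le {p : ℝ} (h0 : 0 < p) (h1 : p < 1) (f : (Edge n r → Bool) → ℝ)
    (hf : ∀ x, f x = 0 ∨ f x = 1)
    (hinv : ∀ (σ : Equiv.Perm (Fin n)) x, f (fun e => x (edgePerm r σ e)) = f x)
    (d : ℕ) (X : Finset (Fin n)) (v : Fin n) (hv : v ∈ X)
    (x : Edge n r → Bool) :
    (X.card : ℝ) * ∑ T ∈ TV r d X v, fc p (fun z => f (mix (EX r X) z x)) T ^ 2 ≤ 1 := by
  set F : (Edge n r → Bool) → ℝ := fun z => f (mix (EX r X) z x) with hFdef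
  have e1 : (X.card : ℝ) * ∑ T ∈ TV r d X v, fc p F T ^ 2
      = ∑ u ∈ X, ∑ T ∈ TV r d X u, fc p F T ^ 2 := by
    rw [Finset.sum_congr rfl (fun u hu => TV_weight_eq p f hinv d X u v hu hv x)]
    rw [Finset.sum_const, nsmul_eq_mul]
  rw [e1, ← Finset.sum_biUnion]
  · calc _ ≤ ∑ T : Finset (Edge n r), fc p F T ^ 2 :=
          Finset.sum_le_sum_of_subset_of_nonneg (Finset.subset_univ _) (fun _ _ _ => sq_nonneg _)
      _ = Ex p (fun x => F x ^ 2) := (parseval h0 h1 F).symm
      _ ≤ Ex p (fun _ => 1) := by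
          refine Ex_mono h0.le h1.le fun z => ?_
          rcases hf (mix (EX r X) z x) with h | h <;> simp [hFdef, h]
      _ = 1 := Ex_const p 1
  · intro a ha b hb hab
    rw [Function.onFun, Finset.disjoint_left]
    intro T hTa hTb
    simp only [TV, Finset.mem_filter, Finset.mem_univ, true_and] at hTa hTb
    obtain ⟨e, he⟩ := hTa.1
    have h2 := hTa.2.2 e he
    rw [hTb.2.2 e he] at h2
    exact hab (Finset.singleton_injective h2).symm

lemma real_aux {w j θ κ L : ℝ} (hw0 : 0 ≤ w) (hj0 : 0 ≤ j) (hθ : 0 ≤ θ)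
    (hLw : L * w ≤ 1) (hkey : w ^ 2 ≤ 4 * κ * j ^ 3) (hθ' : 4 * κ ≤ θ ^ 3 * L) :
    w ≤ θ * j := by
  have h3 : w ^ 3 ≤ (θ * j) ^ 3 := by
    calc w ^ 3 = w ^ 2 * w := by ring
      _ ≤ (4 * κ * j ^ 3) * w := mul_le_mul_of_nonneg_right hkey hw0
      _ = (4 * κ) * (j ^ 3 * w) := by ring
      _ ≤ (θ ^ 3 * L) * (j ^ 3 * w) := mul_le_mul_of_nonneg_right hθ' (by positivity)
      _ = (θ ^ 3 * j ^ 3) * (L * w) := by ring
      _ ≤ (θ ^ 3 * j ^ 3) * 1 := mul_le_mul_of_nonneg_left hLw (by positivity)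
      _ = _ := by ring
  exact (pow_le_pow_iff_left₀ hw0 (by positivity) (by norm_num)).1 h3

/-- Key inequality for one block. -/
theorem block {p : ℝ} (h0 : 0 < p) (h1 : p < 1) (f : (Edge n r → Bool) → ℝ)
    (hf : ∀ x, f x = 0 ∨ f x = 1)
    (hinv : ∀ (σ : Equiv.Perm (Fin n)) x, f (fun e => x (edgePerm r σ e)) = f x)
    (d : ℕ) (X : Finset (Fin n)) (v : Fin n) (hv : v ∈ X) (L : ℕ) (hL : L ≤ X.card)
    (θ : ℝ) (hθ : 0 ≤ θ) (hθ' : 4 * (4 / (p * (1 - p))) ^ d ≤ θ ^ 3 * L) :
    ∑ S ∈ Finset.univ.filter (fun S : Finset (Edge n r) => S ∩ EX r X ∈ TV r d X v),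
        fc p f S ^ 2
      ≤ θ * ∑ S ∈ Finset.univ.filter (fun S : Finset (Edge n r) => ¬ Disjoint S (EV r v)),
        fc p f S ^ 2 := by
  have hs : 0 < p * (1 - p) := mul_pos h0 (by linarith only [h1])
  have hpt : ∀ x : Edge n r → Bool,
      ∑ T ∈ TV r d X v, fc p (fun z => f (mix (EX r X) z x)) T ^ 2
        ≤ θ * ∑ T ∈ Finset.univ.filter (fun T : Finset (Edge n r) => ¬ Disjoint T (EV r v)),
          fc p (fun z => f (mix (EX r X) z x)) T ^ 2 := by
    intro x
    have hle := TV_weight_le h0 h1 f hf hinv d X v hv x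
    have hkey := key h0 h1 (fun z => f (mix (EX r X) z x)) (fun z => hf _) (EV r v)
      (TV r d X v) d (by
        intro T hT
        simp only [TV, Finset.mem_filter, Finset.mem_univ, true_and] at hT
        exact hT.2.1) (by
        intro T hT
        simp only [TV, Finset.mem_filter, Finset.mem_univ, true_and] at hT
        obtain ⟨e, he⟩ := hT.1
        intro hdis
        rw [Finset.disjoint_left] at hdis
        apply hdis he
        simp only [EV, Finset.mem_filter, Finset.mem_univ, true_and]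
        have h3 := hT.2.2 e he
        have h4 : v ∈ e.1 ∩ X := by rw [h3]; exact Finset.mem_singleton_self v
        exact (Finset.mem_inter.1 h4).1)
    set w := ∑ T ∈ TV r d X v, fc p (fun z => f (mix (EX r X) z x)) T ^ 2 with hw
    set j := ∑ T ∈ Finset.univ.filter (fun T : Finset (Edge n r) => ¬ Disjoint T (EV r v)),
          fc p (fun z => f (mix (EX r X) z x)) T ^ 2 with hj
    have hw0 : 0 ≤ w := Finset.sum_nonneg fun T _ => sq_nonneg _
    have hj0 : 0 ≤ j := Finset.sum_nonneg fun T _ => sq_nonneg _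
    have hLw : (L : ℝ) * w ≤ 1 := by
      have : (L : ℝ) ≤ X.card := by exact_mod_cast hL
      calc (L : ℝ) * w ≤ X.card * w := mul_le_mul_of_nonneg_right this hw0
        _ ≤ 1 := hle
    exact real_aux hw0 hj0 hθ hLw hkey hθ'
  have hE := Ex_mono h0.le h1.le hpt
  rw [Ex_mul_left, Ex_sum_fc_restrict_sq h0 h1, Ex_sum_fc_restrict_sq h0 h1] at hE
  refine hE.trans (le_of_eq ?_)
  congr 1
  refine Finset.sum_congr ?_ fun _ _ => rfl
  ext S
  simp only [Finset.mem_filter, Finset.mem_univ, true_and, not_iff_not]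
  have hsub : ∀ e ∈ EV r v, e ∈ EX r X := by
    intro e he
    simp only [EV, Finset.mem_filter, Finset.mem_univ, true_and] at he
    simp only [EX, Finset.mem_filter, Finset.mem_univ, true_and]
    intro hdis
    exact (Finset.disjoint_left.1 hdis he) hv
  constructor
  · intro h
    rw [Finset.disjoint_left] at h ⊢
    intro e he hev
    exact h (Finset.mem_inter.2 ⟨he, hsub e hev⟩) hev
  · intro h
    exact Finset.disjoint_of_subset_left Finset.inter_subset_left h

end sym

end Vale.Agent.P063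
end
end

section

section

set_option autoImplicit false
set_option linter.unusedSectionVars false
set_option linter.unusedVariables false

namespace Vale.Agent.P063

open Finset

section core

variable {n r : ℕ}

/-- covered vertices -/
def VS (S : Finset (Edge n r)) : Finset (Fin n) :=
  Finset.univ.filter (fun v => ∃ e ∈ S, v ∈ e.1)

/-- blocks -/
def XB (L : ℕ) (v : Fin n) (i : ℕ) : Finset (Fin n) :=
  Finset.univ.filter (fun u => u = v ∨ u.val % L = i)

lemma mem_VS (S : Finset (Edge n r)) (v : Fin n) : v ∈ VS S ↔ ∃ e ∈ S, v ∈ e.1 := by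
  simp only [VS, Subtype.exists, exists_and_right, mem_filter, mem_univ, true_and]

lemma mem_VS_iff_not_disjoint (S : Finset (Edge n r)) (v : Fin n) :
    v ∈ VS S ↔ ¬ Disjoint S (EV r v) := by
  rw [mem_VS, Finset.not_disjoint_iff]
  simp only [Subtype.exists, exists_and_right, EV, mem_filter, mem_univ, true_and]

lemma card_VS_le (S : Finset (Edge n r)) : (VS S).card ≤ r * S.card := by
  have h : VS S ⊆ S.biUnion (fun e => e.1) := by
    intro v hv
    rw [mem_VS] at hv
    rw [Finset.mem_biUnion]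
    exact hv
  calc (VS S).card ≤ (S.biUnion (fun e => e.1)).card := Finset.card_le_card h
    _ ≤ ∑ e ∈ S, e.1.card := Finset.card_biUnion_le
    _ = ∑ e ∈ S, r := Finset.sum_congr rfl fun e _ => e.2
    _ = r * S.card := by rw [Finset.sum_const, smul_eq_mul, mul_comm]

lemma card_XB {L : ℕ} (hL : L * L ≤ n) (v : Fin n) (i : ℕ) (hi : i < L) :
    L ≤ (XB L v i).card := by
  have hlt : ∀ t : Fin L, i + t.val * L < n := by
    intro t
    have h1 : t.val + 1 ≤ L := t.isLt
    have h2 : (t.val + 1) * L ≤ L * L := Nat.mul_le_mul_right L h1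
    have h3 : (t.val + 1) * L = t.val * L + L := by ring
    omega
  have := Finset.card_le_card_of_injOn (s := (Finset.univ : Finset (Fin L)))
    (t := XB L v i) (fun t => (⟨i + t.val * L, hlt t⟩ : Fin n)) (by
      intro t _
      simp only [XB, Finset.coe_filter, Finset.mem_univ, true_and, Set.mem_ofPred_eq]
      right
      rw [Nat.add_mul_mod_self_right, Nat.mod_eq_of_lt hi]) (by
      intro t _ t' _ h
      have h1 : i + t.val * L = i + t'.val * L := congrArg Fin.val h
      have h2 : t.val * L = t'.val * L := by omega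
      have hL0 : 0 < L := by omega
      exact Fin.ext (Nat.eq_of_mul_eq_mul_right hL0 h2))
  simpa only [ge_iff_le, card_univ, Fintype.card_fin] using this

/-- sets of edges in which `v` has small positive degree, not too many covered vertices -/
def Low (L d : ℕ) (v : Fin n) : Finset (Finset (Edge n r)) :=
  Finset.univ.filter (fun S => v ∈ VS S ∧ (S.filter (fun e => v ∈ e.1)).card ≤ d
    ∧ 2 * (VS S).card ≤ L)

/-- good block indices -/
def good (L : ℕ) (v : Fin n) (S : Finset (Edge n r)) : Finset ℕ :=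
  Finset.range L \ ((VS S).erase v).image (fun u => u.val % L)

lemma card_good {L d : ℕ} {v : Fin n} {S : Finset (Edge n r)} (hS : S ∈ Low L d v) :
    L ≤ 2 * (good L v S).card := by
  simp only [Low, Finset.mem_filter, Finset.mem_univ, true_and] at hS
  have h1 : (Finset.range L).card - (((VS S).erase v).image (fun u => u.val % L)).card
      ≤ (good L v S).card := Finset.le_card_sdiff _ _
  have h2 : (((VS S).erase v).image (fun u => u.val % L)).card ≤ (VS S).card :=
    Finset.card_image_le.trans (Finset.card_le_card (Finset.erase_subset _ _))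
  rw [Finset.card_range] at h1
  omega

lemma good_mem {L d : ℕ} {v : Fin n} {S : Finset (Edge n r)} (hS : S ∈ Low L d v)
    {i : ℕ} (hi : i ∈ good L v S) :
    S ∩ EX r (XB L v i) ∈ TV r d (XB L v i) v := by
  simp only [Low, Finset.mem_filter, Finset.mem_univ, true_and] at hS
  obtain ⟨hv, hdeg, -⟩ := hS
  simp only [good, Finset.mem_sdiff, Finset.mem_image, Finset.mem_erase, not_exists,
    not_and] at hi
  have hvX : v ∈ XB L v i := by simp only [XB, mem_filter, mem_univ, true_or, and_self]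
  have key : ∀ e ∈ S, ∀ u ∈ e.1, u ∈ XB L v i → u = v := by
    intro e he u hu huX
    by_contra hne
    have huV : u ∈ VS S := (mem_VS S u).2 ⟨e, he, hu⟩
    simp only [XB, Finset.mem_filter, Finset.mem_univ, true_and] at huX
    rcases huX with h | h
    · exact hne h
    · exact hi.2 u ⟨hne, huV⟩ h
  have key2 : ∀ e ∈ S ∩ EX r (XB L v i), v ∈ e.1 := by
    intro e he
    rw [Finset.mem_inter] at he
    obtain ⟨heS, heX⟩ := he
    simp only [EX, Finset.mem_filter, Finset.mem_univ, true_and] at heX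
    rw [Finset.not_disjoint_iff] at heX
    obtain ⟨u, hu, huX⟩ := heX
    have := key e heS u hu huX
    rwa [this] at hu
  simp only [TV, Finset.mem_filter, Finset.mem_univ, true_and]
  refine ⟨?_, ?_, ?_⟩
  · rw [mem_VS] at hv
    obtain ⟨e, he, hve⟩ := hv
    refine ⟨e, Finset.mem_inter.2 ⟨he, ?_⟩⟩
    simp only [EX, Finset.mem_filter, Finset.mem_univ, true_and]
    rw [Finset.not_disjoint_iff]
    exact ⟨v, hve, hvX⟩
  · refine le_trans (Finset.card_le_card ?_) hdeg
    intro e he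
    rw [Finset.mem_filter]
    exact ⟨(Finset.mem_inter.1 he).1, key2 e he⟩
  · intro e he
    ext u
    rw [Finset.mem_inter, Finset.mem_singleton]
    constructor
    · rintro ⟨hu, huX⟩
      exact key e (Finset.mem_inter.1 he).1 u hu huX
    · rintro rfl
      exact ⟨key2 e he, hvX⟩

/-- Weight of the sets in which `v` has low degree. -/
theorem low_le {L d : ℕ} (hL1 : 1 ≤ L) (hL : L * L ≤ n) {p : ℝ} (h0 : 0 < p) (h1 : p < 1)
    (f : (Edge n r → Bool) → ℝ) (hf : ∀ x, f x = 0 ∨ f x = 1)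
    (hinv : ∀ (s : Equiv.Perm (Fin n)) x, f (fun e => x (permEdge s e)) = f x)
    (θ : ℝ) (hθ : 0 ≤ θ) (hθ' : 4 * (4 / (p * (1 - p))) ^ d ≤ θ ^ 3 * L) (v : Fin n) :
    ∑ S ∈ Low L d v, fc p f S ^ 2
      ≤ 2 * θ * ∑ S ∈ Finset.univ.filter (fun S : Finset (Edge n r) => v ∈ VS S),
        fc p f S ^ 2 := by
  have hLpos : (0 : ℝ) < L := by exact_mod_cast hL1
  set J := ∑ S ∈ Finset.univ.filter (fun S : Finset (Edge n r) => v ∈ VS S),
        fc p f S ^ 2 with hJ
  have hJ' : ∑ S ∈ Finset.univ.filter (fun S : Finset (Edge n r) => ¬ Disjoint S (EV r v)),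
        fc p f S ^ 2 = J := by
    rw [hJ]
    refine Finset.sum_congr ?_ fun _ _ => rfl
    ext S
    simp only [Finset.mem_filter, Finset.mem_univ, true_and, mem_VS_iff_not_disjoint]
  have hblock : ∀ i ∈ Finset.range L,
      ∑ S ∈ Finset.univ.filter (fun S : Finset (Edge n r) =>
        S ∩ EX r (XB L v i) ∈ TV r d (XB L v i) v), fc p f S ^ 2 ≤ θ * J := by
    intro i hi
    rw [← hJ']
    exact block h0 h1 f hf hinv d (XB L v i) v (by simp only [XB, mem_filter, mem_univ, true_or, and_self]) L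
      (card_XB hL v i (Finset.mem_range.1 hi)) θ hθ hθ'
  have hsum : ∑ S ∈ Low L d v, fc p f S ^ 2 * ((good L v S).card : ℝ) ≤ L * (θ * J) := by
    have e1 : ∑ S ∈ Low L d v, fc p f S ^ 2 * ((good L v S).card : ℝ)
        = ∑ i ∈ Finset.range L, ∑ S ∈ Low L d v,
          (if i ∈ good L v S then fc p f S ^ 2 else 0) := by
      rw [Finset.sum_comm]
      refine Finset.sum_congr rfl fun S _ => ?_
      have hsub : good L v S ⊆ Finset.range L := Finset.sdiff_subset
      rw [Finset.sum_ite_mem, Finset.inter_eq_right.2 hsub, Finset.sum_const, nsmul_eq_mul,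
        mul_comm]
    rw [e1]
    calc _ ≤ ∑ i ∈ Finset.range L, θ * J := by
          refine Finset.sum_le_sum fun i hi => ?_
          refine le_trans ?_ (hblock i hi)
          rw [← Finset.sum_filter]
          refine Finset.sum_le_sum_of_subset_of_nonneg ?_ fun _ _ _ => sq_nonneg _
          intro S hS
          rw [Finset.mem_filter] at hS
          rw [Finset.mem_filter]
          exact ⟨Finset.mem_univ _, good_mem hS.1 hS.2⟩
      _ = L * (θ * J) := by rw [Finset.sum_const, Finset.card_range, nsmul_eq_mul]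
  have hge : ∑ S ∈ Low L d v, fc p f S ^ 2 * ((L : ℝ) / 2)
      ≤ ∑ S ∈ Low L d v, fc p f S ^ 2 * ((good L v S).card : ℝ) := by
    refine Finset.sum_le_sum fun S hS => ?_
    refine mul_le_mul_of_nonneg_left ?_ (sq_nonneg _)
    have : (L : ℝ) ≤ 2 * ((good L v S).card : ℝ) := by exact_mod_cast card_good hS
    linarith only [this]
  rw [← Finset.sum_mul] at hge
  have h3 := hge.trans hsum
  have h4 : (∑ S ∈ Low L d v, fc p f S ^ 2) * (L : ℝ) ≤ (2 * θ * J) * L := by
    have : (∑ S ∈ Low L d v, fc p f S ^ 2) * ((L : ℝ) / 2)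
        = (∑ S ∈ Low L d v, fc p f S ^ 2) * (L : ℝ) / 2 := by ring
    rw [this] at h3
    linarith only [hsum, hge]
  exact le_of_mul_le_mul_right h4 hLpos

lemma var_eq {p : ℝ} (h0 : 0 < p) (h1 : p < 1)
    (f : (Edge n r → Bool) → ℝ) (hf : ∀ x, f x = 0 ∨ f x = 1) :
    Ex p f - (Ex p f) ^ 2
      = ∑ S ∈ Finset.univ.filter (fun S : Finset (Edge n r) => S.Nonempty), fc p f S ^ 2 := by
  have e1 : Ex p f = Ex p (fun x => f x ^ 2) := by
    congr 1
    funext x
    rcases hf x with h | h <;> simp [h]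
  have e2 : Ex p (fun x => f x ^ 2) = ∑ S : Finset (Edge n r), fc p f S ^ 2 :=
    parseval h0 h1 f
  have e3 : ∑ S : Finset (Edge n r), fc p f S ^ 2
      = (∑ S ∈ Finset.univ.filter (fun S : Finset (Edge n r) => S.Nonempty), fc p f S ^ 2)
        + ∑ S ∈ Finset.univ.filter (fun S : Finset (Edge n r) => ¬ S.Nonempty),
          fc p f S ^ 2 := by
    rw [Finset.sum_filter_add_sum_filter_not]
  have e4 : ∑ S ∈ Finset.univ.filter (fun S : Finset (Edge n r) => ¬ S.Nonempty),
          fc p f S ^ 2 = (Ex p f) ^ 2 := by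
    have : Finset.univ.filter (fun S : Finset (Edge n r) => ¬ S.Nonempty) = {∅} := by
      ext S
      simp [Finset.not_nonempty_iff_eq_empty]
    rw [this, Finset.sum_singleton, fc_empty]
  rw [← e4]
  nth_rewrite 1 [e1]
  rw [e2, e3]
  ring

lemma one_le_coef {L d : ℕ} (hL1 : 1 ≤ L) (N : ℝ) (hN : 0 < N)
    (hN' : ∀ S : Finset (Edge n r), S.Nonempty →
      (∀ v : Fin n, (∃ e ∈ S, v ∈ e.1) → d < (S.filter (fun e => v ∈ e.1)).card) →
      N ≤ S.card) (S : Finset (Edge n r)) (hS : S.Nonempty) (hc1 : ¬ ∃ v, S ∈ Low L d v) :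
    1 ≤ (2 * r / L + 1 / N) * (S.card : ℝ) := by
  have hLpos : (0 : ℝ) < L := by exact_mod_cast hL1
  rw [add_mul]
  by_cases hc2 : 2 * (VS S).card ≤ L
  · have h7 : N ≤ S.card := by
      refine hN' S hS ?_
      intro v hv
      by_contra hcon
      rw [not_lt] at hcon
      refine hc1 ⟨v, ?_⟩
      simp only [Low, Finset.mem_filter, Finset.mem_univ, true_and]
      exact ⟨(mem_VS S v).2 hv, hcon, hc2⟩
    have h8 : 1 ≤ 1 / N * (S.card : ℝ) := by
      rw [one_div, inv_mul_eq_div, le_div_iff₀ hN]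
      linarith only [h7]
    have h9 : 0 ≤ 2 * (r : ℝ) / L * (S.card : ℝ) := by (clear * - hL1 hS; positivity)
    linarith only [h8, h9]
  · have h7 : (L : ℝ) ≤ 2 * r * S.card := by
      have h8 : L ≤ 2 * (r * S.card) := by
        have := card_VS_le S
        omega
      have h9 : (L : ℝ) ≤ 2 * (r * S.card) := by exact_mod_cast h8
      linarith only [h9]
    have h8 : 1 ≤ 2 * (r : ℝ) / L * (S.card : ℝ) := by
      rw [div_mul_eq_mul_div, le_div_iff₀ hLpos]
      linarith only [h7]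
    have h9 : 0 ≤ 1 / N * (S.card : ℝ) := by (clear * - hN hS; positivity)
    linarith only [h8, h9]

lemma sum_VS (g : Finset (Edge n r) → ℝ) :
    ∑ v : Fin n, ∑ S ∈ Finset.univ.filter (fun S : Finset (Edge n r) => v ∈ VS S), g S
      = ∑ S : Finset (Edge n r), ((VS S).card : ℝ) * g S := by
  simp only [Finset.sum_filter]
  rw [Finset.sum_comm]
  refine Finset.sum_congr rfl fun S _ => ?_
  rw [Finset.sum_ite_mem, Finset.univ_inter, Finset.sum_const, nsmul_eq_mul]

lemma sum_Low {L d : ℕ} (g : Finset (Edge n r) → ℝ) :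
    ∑ S : Finset (Edge n r), (∑ v : Fin n, if S ∈ Low L d v then g S else 0)
      = ∑ v : Fin n, ∑ S ∈ Low L d v, g S := by
  rw [Finset.sum_comm]
  refine Finset.sum_congr rfl fun v _ => ?_
  rw [Finset.sum_ite_mem, Finset.univ_inter]

/-- The main spectral inequality. -/
theorem core {L d : ℕ} (hL1 : 1 ≤ L) (hL : L * L ≤ n) {p : ℝ} (h0 : 0 < p) (h1 : p < 1)
    (f : (Edge n r → Bool) → ℝ) (hf : ∀ x, f x = 0 ∨ f x = 1)
    (hinv : ∀ (s : Equiv.Perm (Fin n)) x, f (fun e => x (permEdge s e)) = f x)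
    (θ : ℝ) (hθ : 0 ≤ θ) (hθ' : 4 * (4 / (p * (1 - p))) ^ d ≤ θ ^ 3 * L)
    (N : ℝ) (hN : 0 < N)
    (hN' : ∀ S : Finset (Edge n r), S.Nonempty →
      (∀ v : Fin n, (∃ e ∈ S, v ∈ e.1) → d < (S.filter (fun e => v ∈ e.1)).card) →
      N ≤ S.card) :
    Ex p f - (Ex p f) ^ 2
      ≤ (2 * r * θ + 2 * r / L + 1 / N) * ∑ S : Finset (Edge n r), (S.card : ℝ) * fc p f S ^ 2 := by
  have hLpos : (0 : ℝ) < L := by exact_mod_cast hL1
  set I := ∑ S : Finset (Edge n r), (S.card : ℝ) * fc p f S ^ 2 with hI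
  have hc0 : 0 ≤ 2 * (r : ℝ) / L + 1 / N := by (clear * - hL1 hN; positivity)
  have hnn0 : ∀ S : Finset (Edge n r),
      (0 : ℝ) ≤ ∑ v : Fin n, if S ∈ Low L d v then fc p f S ^ 2 else 0 := by
    intro S
    refine Finset.sum_nonneg fun v _ => ?_
    split_ifs
    · exact sq_nonneg _
    · exact le_refl _
  have h40 : ∀ S : Finset (Edge n r),
      0 ≤ (2 * r / L + 1 / N) * ((S.card : ℝ) * fc p f S ^ 2) := fun S =>
    mul_nonneg hc0 (mul_nonneg (Nat.cast_nonneg _) (sq_nonneg _))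
  have hpt : ∀ S ∈ Finset.univ.filter (fun S : Finset (Edge n r) => S.Nonempty),
      fc p f S ^ 2 ≤ (∑ v : Fin n, if S ∈ Low L d v then fc p f S ^ 2 else 0)
        + (2 * r / L + 1 / N) * ((S.card : ℝ) * fc p f S ^ 2) := by
    intro S hS
    rw [Finset.mem_filter] at hS
    have hnn := hnn0 S
    have h4 := h40 S
    by_cases hc1 : ∃ v, S ∈ Low L d v
    · obtain ⟨v, hv⟩ := hc1
      have h3 : fc p f S ^ 2 ≤ ∑ v : Fin n, if S ∈ Low L d v then fc p f S ^ 2 else 0 := by
        have := Finset.single_le_sum (s := (Finset.univ : Finset (Fin n)))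
          (f := fun v => if S ∈ Low L d v then fc p f S ^ 2 else 0)
          (fun v _ => by
            show 0 ≤ ite _ _ _
            split_ifs
            · exact sq_nonneg _
            · exact le_refl _) (Finset.mem_univ v)
        simpa only [ge_iff_le, hv, ↓reduceIte] using this
      linarith only [h4, h3]
    · have h6 := one_le_coef hL1 N hN hN' S hS.2 hc1
      have h5 : fc p f S ^ 2 ≤ (2 * r / L + 1 / N) * ((S.card : ℝ) * fc p f S ^ 2) := by
        calc fc p f S ^ 2 = 1 * fc p f S ^ 2 := by ring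
          _ ≤ ((2 * r / L + 1 / N) * (S.card : ℝ)) * fc p f S ^ 2 :=
            mul_le_mul_of_nonneg_right h6 (sq_nonneg _)
          _ = _ := by ring
      linarith only [hnn, h5]
  have hlow : ∑ v : Fin n, ∑ S ∈ Low L d v, fc p f S ^ 2 ≤ 2 * r * θ * I := by
    calc ∑ v : Fin n, ∑ S ∈ Low L d v, fc p f S ^ 2
        ≤ ∑ v : Fin n, 2 * θ * ∑ S ∈ Finset.univ.filter
            (fun S : Finset (Edge n r) => v ∈ VS S), fc p f S ^ 2 :=
          Finset.sum_le_sum fun v _ => low_le hL1 hL h0 h1 f hf hinv θ hθ hθ' v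
      _ = 2 * θ * ∑ S : Finset (Edge n r), ((VS S).card : ℝ) * fc p f S ^ 2 := by
          rw [← Finset.mul_sum, sum_VS]
      _ ≤ 2 * θ * ∑ S : Finset (Edge n r), ((r : ℝ) * S.card) * fc p f S ^ 2 := by
          refine mul_le_mul_of_nonneg_left ?_ (by (clear * - hθ; positivity))
          refine Finset.sum_le_sum fun S _ => ?_
          refine mul_le_mul_of_nonneg_right ?_ (sq_nonneg _)
          exact_mod_cast card_VS_le S
      _ = 2 * r * θ * I := by
          rw [hI]
          simp only [mul_assoc]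
          rw [← Finset.mul_sum]
          ring
  rw [var_eq h0 h1 f hf]
  calc _ ≤ ∑ S ∈ Finset.univ.filter (fun S : Finset (Edge n r) => S.Nonempty),
        ((∑ v : Fin n, if S ∈ Low L d v then fc p f S ^ 2 else 0)
        + (2 * r / L + 1 / N) * ((S.card : ℝ) * fc p f S ^ 2)) := Finset.sum_le_sum hpt
    _ ≤ ∑ S : Finset (Edge n r), ((∑ v : Fin n, if S ∈ Low L d v then fc p f S ^ 2 else 0)
        + (2 * r / L + 1 / N) * ((S.card : ℝ) * fc p f S ^ 2)) := by
        refine Finset.sum_le_sum_of_subset_of_nonneg (Finset.subset_univ _) fun S _ _ => ?_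
        exact add_nonneg (hnn0 S) (h40 S)
    _ = (∑ v : Fin n, ∑ S ∈ Low L d v, fc p f S ^ 2) + (2 * r / L + 1 / N) * I := by
        rw [Finset.sum_add_distrib, ← Finset.mul_sum, sum_Low (L := L) (d := d) (fun S => fc p f S ^ 2)]
    _ ≤ 2 * r * θ * I + (2 * r / L + 1 / N) * I := add_le_add_left hlow _
    _ = _ := by ring

end core

end Vale.Agent.P063
end
end

section

section

set_option autoImplicit false
set_option linter.unusedSectionVars false
set_option linter.unusedVariables false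

namespace Vale.Agent.P063

open Finset

section comb

variable {n r : ℕ}

lemma deg_le (hr : 1 ≤ r) (S : Finset (Edge n r)) (v : Fin n) :
    (S.filter (fun e => v ∈ e.1)).card ≤ (VS S).card ^ (r - 1) := by
  have h1 : (S.filter (fun e => v ∈ e.1)).card ≤ ((VS S).powersetCard (r - 1)).card := by
    refine Finset.card_le_card_of_injOn (fun e => e.1.erase v) ?_ ?_
    · intro e he
      rw [Finset.mem_coe, Finset.mem_filter] at he
      rw [Finset.mem_coe, Finset.mem_powersetCard]
      refine ⟨?_, ?_⟩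
      · intro u hu
        rw [mem_VS]
        exact ⟨e, he.1, Finset.mem_of_mem_erase hu⟩
      · rw [Finset.card_erase_of_mem he.2, e.2]
    · intro e he e' he' h
      rw [Finset.mem_coe, Finset.mem_filter] at he he'
      apply Subtype.ext
      have h2 : e.1.erase v = e'.1.erase v := h
      rw [← Finset.insert_erase he.2, ← Finset.insert_erase he'.2, h2]
  refine h1.trans ?_
  rw [Finset.card_powersetCard]
  exact Nat.choose_le_pow _ _

lemma sum_deg (S : Finset (Edge n r)) :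
    ∑ v ∈ VS S, (S.filter (fun e => v ∈ e.1)).card = r * S.card := by
  have h : ∀ v ∈ VS S, (S.filter (fun e => v ∈ e.1)).card
      = ∑ e ∈ S, if v ∈ e.1 then 1 else 0 := by
    intro v _
    rw [Finset.card_filter]
  rw [Finset.sum_congr rfl h, Finset.sum_comm]
  have h2 : ∀ e ∈ S, ∑ v ∈ VS S, (if v ∈ e.1 then 1 else 0) = r := by
    intro e he
    have hsub : e.1 ⊆ VS S := fun v hv => (mem_VS S v).2 ⟨e, he, hv⟩
    rw [Finset.sum_ite_mem, Finset.inter_eq_right.2 hsub, Finset.sum_const, smul_eq_mul,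
      mul_one, e.2]
  rw [Finset.sum_congr rfl h2, Finset.sum_const, smul_eq_mul, mul_comm]

/-- A nonempty edge set whose covered vertices all have degree `> d` is large. -/
theorem card_ge (hr : 2 ≤ r) (d : ℕ) (S : Finset (Edge n r)) (hS : S.Nonempty)
    (hdeg : ∀ v : Fin n, (∃ e ∈ S, v ∈ e.1) → d < (S.filter (fun e => v ∈ e.1)).card) :
    ((d : ℝ) + 1) ^ ((r : ℝ) / ((r : ℝ) - 1)) / r ≤ S.card := by
  have hr0 : (0 : ℝ) < r := by
    have : 0 < r := by omega
    exact_mod_cast this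
  have hr1 : (0 : ℝ) < (r : ℝ) - 1 := by
    have : (2 : ℝ) ≤ r := by exact_mod_cast hr
    linarith only [this]
  set k := (VS S).card with hk
  obtain ⟨e0, he0⟩ := hS
  have he0' : e0.1.Nonempty := by
    rw [← Finset.card_pos, e0.2]; omega
  obtain ⟨v0, hv0⟩ := he0'
  have hD : d + 1 ≤ k ^ (r - 1) :=
    le_trans (hdeg v0 ⟨e0, he0, hv0⟩) (deg_le (by omega) S v0)
  have hkD : k * (d + 1) ≤ r * S.card := by
    rw [← sum_deg S, hk, ← smul_eq_mul, ← Finset.sum_const]
    refine Finset.sum_le_sum fun v hv => ?_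
    exact hdeg v ((mem_VS S v).1 hv)
  have hD' : ((d : ℝ) + 1) ≤ (k : ℝ) ^ (r - 1) := by exact_mod_cast hD
  have hkD' : (k : ℝ) * ((d : ℝ) + 1) ≤ r * S.card := by exact_mod_cast hkD
  have hdpos : (0 : ℝ) < (d : ℝ) + 1 := by (clear * -; positivity)
  have hcast : ((r - 1 : ℕ) : ℝ) = (r : ℝ) - 1 := by
    rw [Nat.cast_sub (by omega)]; simp only [Nat.cast_one]
  have hroot : ((d : ℝ) + 1) ^ (1 / ((r : ℝ) - 1)) ≤ k := by
    have h1 : ((d : ℝ) + 1) ^ (1 / ((r : ℝ) - 1))
        ≤ ((k : ℝ) ^ (r - 1)) ^ (1 / ((r : ℝ) - 1)) :=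
      Real.rpow_le_rpow hdpos.le hD' (by (clear * - hr1; positivity))
    refine h1.trans (le_of_eq ?_)
    rw [← hcast, one_div]
    exact Real.pow_rpow_inv_natCast (Nat.cast_nonneg _) (by omega)
  rw [div_le_iff₀ hr0]
  have hexp : (r : ℝ) / ((r : ℝ) - 1) = 1 / ((r : ℝ) - 1) + 1 := by
    field_simp
    ring
  rw [hexp, Real.rpow_add hdpos, Real.rpow_one]
  calc ((d : ℝ) + 1) ^ (1 / ((r : ℝ) - 1)) * ((d : ℝ) + 1)
      ≤ k * ((d : ℝ) + 1) := mul_le_mul_of_nonneg_right hroot hdpos.le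
    _ ≤ r * S.card := hkD'
    _ = S.card * r := by ring

end comb

end Vale.Agent.P063
end
end

section

section

set_option autoImplicit false
set_option linter.unusedSectionVars false
set_option linter.unusedVariables false

namespace Vale.Agent.P063

open Finset Filter

lemma eventually_good : ∃ n0 : ℕ, 2 ≤ n0 ∧ ∀ n : ℕ, n0 ≤ n →
    1 ≤ Real.log n ∧ 4 * Real.log n ^ 6 * Real.exp (Real.log n / 4) ≤ Nat.sqrt n := by
  have h1 : ∀ᶠ y : ℝ in atTop, y ^ 6 * Real.exp (-y) < 1 / (8 * 4 ^ 6) :=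
    (Real.tendsto_pow_mul_exp_neg_atTop_nhds_zero 6).eventually_lt_const (by norm_num)
  have h2 : ∀ᶠ y : ℝ in atTop, (1 : ℝ) ≤ y := eventually_ge_atTop 1
  have hlog : Tendsto (fun n : ℕ => Real.log n / 4) atTop atTop :=
    (Real.tendsto_log_atTop.comp tendsto_natCast_atTop_atTop).atTop_div_const (by norm_num)
  have h3 := hlog.eventually (h1.and h2)
  obtain ⟨n0, hn0⟩ := eventually_atTop.1 h3
  refine ⟨max n0 2, le_max_right _ _, fun n hn => ?_⟩
  obtain ⟨h4, h5⟩ := hn0 n (le_trans (le_max_left _ _) hn)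
  have hn2 : 2 ≤ n := le_trans (le_max_right _ _) hn
  have hnpos : (0 : ℝ) < n := by
    have : 0 < n := by omega
    exact_mod_cast this
  set Λ := Real.log n with hΛ
  refine ⟨by linarith only [h5], ?_⟩
  have hE : (0 : ℝ) < Real.exp (Λ / 4) := Real.exp_pos _
  have h6 : 8 * Λ ^ 6 ≤ Real.exp (Λ / 4) := by
    rw [Real.exp_neg, ← div_eq_mul_inv, div_lt_iff₀ hE] at h4
    have : (Λ / 4) ^ 6 = Λ ^ 6 / 4 ^ 6 := by ring
    rw [this] at h4
    have h7 : Λ ^ 6 / 4 ^ 6 < Real.exp (Λ / 4) / (8 * 4 ^ 6) := by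
      calc _ < _ := h4
        _ = _ := by ring
    rw [div_lt_div_iff₀ (by norm_num) (by norm_num)] at h7
    nlinarith only [h4]
  have h8 : Real.exp (Λ / 2) = Real.sqrt n := by
    rw [hΛ, Real.sqrt_eq_rpow, Real.rpow_def_of_pos hnpos]
    congr 1
    ring
  have h9 : Real.exp (Λ / 2) = Real.exp (Λ / 4) * Real.exp (Λ / 4) := by
    rw [← Real.exp_add]; congr 1; ring
  have h10 : Real.sqrt n < Nat.sqrt n + 1 := Real.real_sqrt_lt_nat_sqrt_succ
  have h11 : (2 : ℝ) ≤ Real.exp (Λ / 2) := by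
    have := Real.add_one_le_exp (Λ / 2)
    linarith only [h5, this]
  have h12 : 4 * Λ ^ 6 * Real.exp (Λ / 4) ≤ Real.exp (Λ / 2) / 2 := by
    rw [h9]
    nlinarith only [hE, h6]
  linarith only [h8, h10, h11, h12]

lemma log_sq_le {x : ℝ} (hx : 0 < x) (h1 : 0 ≤ Real.log x) : Real.log x ^ 2 ≤ 4 * x := by
  have hs : 0 < Real.sqrt x := Real.sqrt_pos.2 hx
  have h2 : Real.log x ≤ 2 * Real.sqrt x := by
    have := Real.log_le_sub_one_of_pos hs
    rw [Real.log_sqrt hx.le] at this
    linarith only [this]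
  calc Real.log x ^ 2 ≤ (2 * Real.sqrt x) ^ 2 := pow_le_pow_left₀ h1 h2 2
    _ = 4 * x := by rw [mul_pow, Real.sq_sqrt hx.le]; norm_num

/-- choice of parameters -/
lemma params {r : ℕ} (hr : 2 ≤ r) {n : ℕ} (hΛ1 : 1 ≤ Real.log n)
    (hbig : 4 * Real.log n ^ 6 * Real.exp (Real.log n / 4) ≤ Nat.sqrt n)
    {p : ℝ} (h0 : 0 < p) (h1 : p < 1) :
    ∃ d : ℕ,
      4 * (4 / (p * (1 - p))) ^ d ≤ (1 / Real.log n ^ 2) ^ 3 * (Nat.sqrt n : ℝ) ∧
      p * (1 - p) * (2 * r * (1 / Real.log n ^ 2) + 2 * r / (Nat.sqrt n : ℝ)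
        + 1 / (((d : ℝ) + 1) ^ ((r : ℝ) / ((r : ℝ) - 1)) / r))
        ≤ 257 * r * (1 / Real.log n ^ ((r : ℝ) / ((r : ℝ) - 1))) := by
  set Λ := Real.log n with hΛ
  set L : ℝ := (Nat.sqrt n : ℝ) with hL
  set α : ℝ := (r : ℝ) / ((r : ℝ) - 1) with hα
  have hr2 : (2 : ℝ) ≤ r := by exact_mod_cast hr
  have hr1 : (0 : ℝ) < (r : ℝ) - 1 := by linarith only [hr2]
  have hα1 : 1 ≤ α := by rw [hα, le_div_iff₀ hr1]; linarith only []
  have hα2 : α ≤ 2 := by rw [hα, div_le_iff₀ hr1]; linarith only [hr2]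
  have hs : 0 < p * (1 - p) := mul_pos h0 (by linarith only [h1])
  have hs4 : p * (1 - p) ≤ 1 / 4 := by nlinarith only [sq_nonneg (p - 1 / 2)]
  have hΛ0 : 0 < Λ := by linarith only [hΛ1]
  set K := 4 / (p * (1 - p)) with hK
  have hKpos : 0 < K := by positivity
  have hK16 : 16 ≤ K := by
    rw [hK, le_div_iff₀ hs]; linarith only [hs4]
  have hpK : p * (1 - p) = 4 / K := by rw [hK]; (clear * - h0; field_simp)
  have hlogK : 1 ≤ Real.log K := by
    rw [Real.le_log_iff_exp_le hKpos]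
    have := Real.exp_one_lt_d9
    linarith only [hK16, this]
  have hLpos : 0 < L := lt_of_lt_of_le (by positivity) hbig
  have hM : Real.exp (Λ / 4) ≤ L / (4 * Λ ^ 6) := by
    rw [le_div_iff₀ (by positivity)]
    linarith only [hbig]
  have hMpos : 0 < L / (4 * Λ ^ 6) := by (clear * - hLpos hΛ1; positivity)
  have hlogM : Λ / 4 ≤ Real.log (L / (4 * Λ ^ 6)) := by
    rw [Real.le_log_iff_exp_le hMpos]; exact hM
  have hLΛ : Λ ^ 2 ≤ L := by
    have e1 : (1 : ℝ) ≤ Real.exp (Λ / 4) := Real.one_le_exp (by positivity)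
    have e2 : Λ ^ 2 ≤ Λ ^ 6 := pow_le_pow_right₀ hΛ1 (by norm_num)
    have e3 : Λ ^ 6 ≤ Λ ^ 6 * Real.exp (Λ / 4) := le_mul_of_one_le_right (by positivity) e1
    nlinarith only [hbig, e2, e3]
  refine ⟨⌊Real.log (L / (4 * Λ ^ 6)) / Real.log K⌋₊, ?_, ?_⟩
  · have hd : ((⌊Real.log (L / (4 * Λ ^ 6)) / Real.log K⌋₊ : ℕ) : ℝ)
        ≤ Real.log (L / (4 * Λ ^ 6)) / Real.log K :=
      Nat.floor_le (div_nonneg (by linarith only [hΛ1, hlogM]) (by linarith only [hlogK]))
    set d := ⌊Real.log (L / (4 * Λ ^ 6)) / Real.log K⌋₊ with hd0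
    rw [le_div_iff₀ (by linarith only [hlogK])] at hd
    have hpow : K ^ d ≤ L / (4 * Λ ^ 6) := by
      rw [← Real.exp_log hKpos, ← Real.exp_nat_mul]
      calc _ ≤ Real.exp (Real.log (L / (4 * Λ ^ 6))) := Real.exp_le_exp.2 hd
        _ = _ := Real.exp_log hMpos
    calc 4 * K ^ d ≤ 4 * (L / (4 * Λ ^ 6)) := by linarith only [hpow]
      _ = (1 / Λ ^ 2) ^ 3 * L := by (clear * - hΛ1 hLpos; field_simp)
  · have hd : Real.log (L / (4 * Λ ^ 6)) / Real.log K
        < ((⌊Real.log (L / (4 * Λ ^ 6)) / Real.log K⌋₊ : ℕ) : ℝ) + 1 := Nat.lt_floor_add_one _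
    set d := ⌊Real.log (L / (4 * Λ ^ 6)) / Real.log K⌋₊ with hd0
    have hd1 : Λ / (4 * Real.log K) ≤ (d : ℝ) + 1 := by
      refine le_trans ?_ hd.le
      rw [← div_div]
      exact div_le_div_of_nonneg_right hlogM (by linarith only [hlogK])
    have hΛα : 0 < Λ ^ α := Real.rpow_pos_of_pos hΛ0 _
    have hΛα2 : Λ ^ α ≤ Λ ^ 2 := by
      have := Real.rpow_le_rpow_of_exponent_le hΛ1 hα2
      rwa [Real.rpow_two] at this
    have hinv2 : 1 / Λ ^ 2 ≤ 1 / Λ ^ α := one_div_le_one_div_of_le hΛα hΛα2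
    have t1 : p * (1 - p) * (2 * r * (1 / Λ ^ 2)) ≤ r / 2 * (1 / Λ ^ α) := by
      calc p * (1 - p) * (2 * r * (1 / Λ ^ 2)) ≤ 1 / 4 * (2 * r * (1 / Λ ^ 2)) :=
            mul_le_mul_of_nonneg_right hs4 (by positivity)
        _ = r / 2 * (1 / Λ ^ 2) := by ring
        _ ≤ r / 2 * (1 / Λ ^ α) := mul_le_mul_of_nonneg_left hinv2 (by positivity)
    have t2 : p * (1 - p) * (2 * r / L) ≤ r / 2 * (1 / Λ ^ α) := by
      have hLinv : 1 / L ≤ 1 / Λ ^ α :=
        one_div_le_one_div_of_le hΛα (hΛα2.trans hLΛ)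
      calc p * (1 - p) * (2 * r / L) ≤ 1 / 4 * (2 * r / L) :=
            mul_le_mul_of_nonneg_right hs4 (by (clear * - hr hLpos; positivity))
        _ = r / 2 * (1 / L) := by ring
        _ ≤ r / 2 * (1 / Λ ^ α) := mul_le_mul_of_nonneg_left hLinv (by positivity)
    have hdα : Λ ^ α / (4 * Real.log K) ^ α ≤ ((d : ℝ) + 1) ^ α := by
      rw [← Real.div_rpow hΛ0.le (by (clear * - hlogK; positivity))]
      exact Real.rpow_le_rpow (by (clear * - hΛ1 hlogK; positivity)) hd1 (by linarith only [hα1])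
    have h4K : 0 < (4 * Real.log K) ^ α := Real.rpow_pos_of_pos (by (clear * - hlogK; positivity)) _
    have h4K2 : (4 * Real.log K) ^ α ≤ (4 * Real.log K) ^ 2 := by
      have := Real.rpow_le_rpow_of_exponent_le (x := 4 * Real.log K) (by linarith only [hlogK]) hα2
      rwa [Real.rpow_two] at this
    have hlogsq : Real.log K ^ 2 ≤ 4 * K := log_sq_le hKpos (by linarith only [hlogK])
    have t3 : p * (1 - p) * (1 / (((d : ℝ) + 1) ^ α / r)) ≤ 256 * r * (1 / Λ ^ α) := by
      have hdpos : 0 < ((d : ℝ) + 1) ^ α := Real.rpow_pos_of_pos (by (clear * -; positivity)) _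
      have e1 : 1 / (((d : ℝ) + 1) ^ α / r) = r * (1 / ((d : ℝ) + 1) ^ α) := by
        rw [one_div_div]; ring
      have e2 : 1 / ((d : ℝ) + 1) ^ α ≤ (4 * Real.log K) ^ α * (1 / Λ ^ α) := by
        have e3 : 1 / ((d : ℝ) + 1) ^ α ≤ 1 / (Λ ^ α / (4 * Real.log K) ^ α) :=
          one_div_le_one_div_of_le (by (clear * - hΛ1 hlogK; positivity)) hdα
        rw [one_div_div] at e3
        calc _ ≤ _ := e3
          _ = _ := by ring
      rw [e1, hpK]
      have e4 : 4 / K * (4 * Real.log K) ^ α ≤ 256 := by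
        rw [div_mul_eq_mul_div, div_le_iff₀ hKpos]
        calc 4 * (4 * Real.log K) ^ α ≤ 4 * (4 * Real.log K) ^ 2 := by linarith only [h4K2]
          _ = 64 * Real.log K ^ 2 := by ring
          _ ≤ 64 * (4 * K) := by linarith only [hlogsq]
          _ = 256 * K := by ring
      calc 4 / K * (r * (1 / ((d : ℝ) + 1) ^ α))
          ≤ 4 / K * (r * ((4 * Real.log K) ^ α * (1 / Λ ^ α))) := by
            apply mul_le_mul_of_nonneg_left _ (by positivity)
            apply mul_le_mul_of_nonneg_left e2 (by positivity)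
        _ = (4 / K * (4 * Real.log K) ^ α) * (r * (1 / Λ ^ α)) := by ring
        _ ≤ 256 * (r * (1 / Λ ^ α)) := mul_le_mul_of_nonneg_right e4 (by positivity)
        _ = _ := by ring
    calc p * (1 - p) * (2 * r * (1 / Λ ^ 2) + 2 * r / L + 1 / (((d : ℝ) + 1) ^ α / r))
        = p * (1 - p) * (2 * r * (1 / Λ ^ 2)) + p * (1 - p) * (2 * r / L)
          + p * (1 - p) * (1 / (((d : ℝ) + 1) ^ α / r)) := by ring
      _ ≤ r / 2 * (1 / Λ ^ α) + r / 2 * (1 / Λ ^ α) + 256 * r * (1 / Λ ^ α) := by linarith only [t1, t2, t3]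
      _ = 257 * r * (1 / Λ ^ α) := by ring

/-- Lower bound for the derivative, for all `p`. -/
theorem deriv_lower {r : ℕ} (hr : 2 ≤ r) : ∃ n0 : ℕ, 2 ≤ n0 ∧ ∀ n : ℕ, n0 ≤ n →
    ∀ f : (Edge n r → Bool) → ℝ, (∀ x, f x = 0 ∨ f x = 1) → (∀ x y, x ≤ y → f x ≤ f y) →
    (∀ (s : Equiv.Perm (Fin n)) x, f (fun e => x (permEdge s e)) = f x) →
    ∀ p : ℝ, 0 < p → p < 1 →
    ∃ D : ℝ, HasDerivAt (fun q => Ex q f) D p ∧
      Real.log n ^ ((r : ℝ) / ((r : ℝ) - 1)) * (Ex p f - (Ex p f) ^ 2) ≤ 257 * r * D := by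
  obtain ⟨n0, hn02, hn0⟩ := eventually_good
  refine ⟨n0, hn02, fun n hn f hf hmono hinv p h0 h1 => ?_⟩
  obtain ⟨hΛ1, hbig⟩ := hn0 n hn
  obtain ⟨D, hD, hI⟩ := russo h0 h1 f hf hmono
  refine ⟨D, hD, ?_⟩
  obtain ⟨d, hd1, hd2⟩ := params hr hΛ1 hbig h0 h1
  have hs : 0 < p * (1 - p) := mul_pos h0 (by linarith only [h1])
  have hΛ0 : 0 < Real.log n := by linarith only [hΛ1]
  have hr2 : (2 : ℝ) ≤ r := by exact_mod_cast hr
  have hLpos : (0 : ℝ) < Nat.sqrt n := lt_of_lt_of_le (by positivity) hbig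
  have hL1 : 1 ≤ Nat.sqrt n := by
    have : 0 < Nat.sqrt n := by exact_mod_cast hLpos
    exact this
  have hcore := core (n := n) (r := r) (L := Nat.sqrt n) (d := d) hL1 (Nat.sqrt_le n) h0 h1 f hf
    hinv (1 / Real.log n ^ 2) (by positivity) hd1
    (((d : ℝ) + 1) ^ ((r : ℝ) / ((r : ℝ) - 1)) / r)
    (div_pos (Real.rpow_pos_of_pos (by (clear * -; positivity)) _) (by linarith only [hr2]))
    (fun S hS hdeg => card_ge hr d S hS hdeg)
  rw [hI] at hcore
  have hInn : 0 ≤ p * (1 - p) * D := by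
    rw [← hI]
    exact Finset.sum_nonneg fun S _ => mul_nonneg (Nat.cast_nonneg _) (sq_nonneg _)
  have hDnn : 0 ≤ D := by
    by_contra hneg
    rw [not_le] at hneg
    have := mul_neg_of_pos_of_neg hs hneg
    linarith only [hInn, this]
  have hΛα : 0 < Real.log n ^ ((r : ℝ) / ((r : ℝ) - 1)) := Real.rpow_pos_of_pos hΛ0 _
  have h2 : Ex p f - (Ex p f) ^ 2
      ≤ (257 * r * (1 / Real.log n ^ ((r : ℝ) / ((r : ℝ) - 1)))) * D := by
    calc _ ≤ _ := hcore
      _ = (p * (1 - p) * (2 * r * (1 / Real.log n ^ 2) + 2 * r / (Nat.sqrt n : ℝ)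
        + 1 / (((d : ℝ) + 1) ^ ((r : ℝ) / ((r : ℝ) - 1)) / r))) * D := by ring
      _ ≤ _ := mul_le_mul_of_nonneg_right hd2 hDnn
  calc Real.log n ^ ((r : ℝ) / ((r : ℝ) - 1)) * (Ex p f - (Ex p f) ^ 2)
      ≤ Real.log n ^ ((r : ℝ) / ((r : ℝ) - 1))
        * ((257 * r * (1 / Real.log n ^ ((r : ℝ) / ((r : ℝ) - 1)))) * D) :=
        mul_le_mul_of_nonneg_left h2 hΛα.le
    _ = 257 * r * D := by (clear * - hΛ1 hr; field_simp)

end Vale.Agent.P063
end
end

section

section

set_option autoImplicit false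

namespace Vale.Agent.P063

open Finset Filter

section

variable {n r : ℕ}

open Classical in
/-- indicator function -/
noncomputable def ind (P : Set (Edge n r → Bool)) (x : Edge n r → Bool) : ℝ :=
  if x ∈ P then 1 else 0

lemma ind_bool (P : Set (Edge n r → Bool)) (x) : ind P x = 0 ∨ ind P x = 1 := by
  unfold ind; split_ifs
  · exact Or.inr rfl
  · exact Or.inl rfl

lemma mu_eq (p : ℝ) (P : Set (Edge n r → Bool)) : mu p P = Ex p (ind P) := by
  unfold mu Ex ind W wt
  apply sum_congr rfl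
  intro x _
  split_ifs <;> simp

lemma ind_mono {P : Set (Edge n r → Bool)} (hP : IsUpperSet P) : Monotone (ind P) := by
  intro x y hxy
  unfold ind
  by_cases hx : x ∈ P
  · rw [if_pos hx, if_pos (hP hxy hx)]
  · rw [if_neg hx]; split_ifs <;> norm_num

lemma ind_inv {P : Set (Edge n r → Bool)} (hP : IsProperty P) (s : Equiv.Perm (Fin n))
    (x : Edge n r → Bool) : ind P (fun e => x (permEdge s e)) = ind P x := by
  unfold ind
  by_cases h : x ∈ P
  · rw [if_pos h, if_pos ((hP s x).2 h)]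
  · rw [if_neg h, if_neg (fun h' => h ((hP s x).1 h'))]

lemma mu_nonneg {p : ℝ} (h0 : 0 ≤ p) (h1 : p ≤ 1) (P : Set (Edge n r → Bool)) : 0 ≤ mu p P := by
  rw [mu_eq]
  apply Ex_nonneg h0 h1
  intro x
  rcases ind_bool P x with h | h <;> rw [h]
  norm_num

lemma mu_le_one {p : ℝ} (h0 : 0 ≤ p) (h1 : p ≤ 1) (P : Set (Edge n r → Bool)) : mu p P ≤ 1 := by
  rw [mu_eq]
  calc Ex p (ind P) ≤ Ex p (fun _ => 1) := by
        apply Ex_mono h0 h1
        intro x
        rcases ind_bool P x with h | h <;> rw [h]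
        norm_num
    _ = 1 := Ex_const p 1

lemma mu_one {P : Set (Edge n r → Bool)} (hP : IsUpperSet P) (hne : P.Nonempty) :
    mu 1 P = 1 := by
  obtain ⟨x0, hx0⟩ := hne
  have htop : (fun _ => true) ∈ P := hP (fun e => Bool.le_true (x0 e)) hx0
  unfold mu
  rw [sum_eq_single (fun _ => true)]
  · rw [if_pos htop]; simp only [↓reduceIte, prod_const_one]
  · intro x _ hx
    split_ifs with h
    · obtain ⟨e, he⟩ : ∃ e, x e ≠ true := by
        by_contra hc
        push Not at hc
        exact hx (funext hc)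
      apply prod_eq_zero (mem_univ e)
      simp at he
      simp [he]
    · rfl
  · intro h; exact absurd (mem_univ _) h

lemma mu_continuous (P : Set (Edge n r → Bool)) : Continuous (fun p => mu p P) := by
  unfold mu
  apply continuous_finsetSum
  intro x _
  by_cases hx : x ∈ P
  · simp only [if_pos hx]
    apply continuous_finsetProd
    intro e _
    by_cases he : x e = true
    · simp only [if_pos he]; exact continuous_id
    · simp only [if_neg he]; exact continuous_const.sub continuous_id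
  · simp only [if_neg hx]; exact continuous_const

lemma mu_fun (P : Set (Edge n r → Bool)) : (fun p => mu p P) = fun p => Ex p (ind P) := by
  funext p; exact mu_eq p P

lemma mu_deriv {P : Set (Edge n r → Bool)} (hP : IsUpperSet P) {p : ℝ} (h0 : 0 < p)
    (h1 : p < 1) : ∃ D : ℝ, HasDerivAt (fun p => mu p P) D p ∧ 0 ≤ D := by
  obtain ⟨D, hD, hDI⟩ := russo h0 h1 (ind P) (ind_bool P) (fun x y h => ind_mono hP h)
  refine ⟨D, by rw [mu_fun]; exact hD, ?_⟩
  have hpq : 0 < p * (1 - p) := mul_pos h0 (by linarith)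
  have h2 : 0 ≤ p * (1 - p) * D := by
    rw [← hDI]
    exact sum_nonneg fun S _ => by (clear * -; positivity)
  exact nonneg_of_mul_nonneg_right h2 hpq

lemma mu_monoOn {P : Set (Edge n r → Bool)} (hP : IsUpperSet P) :
    MonotoneOn (fun p => mu p P) (Set.Icc 0 1) := by
  apply monotoneOn_of_deriv_nonneg (convex_Icc 0 1)
  · exact (mu_continuous P).continuousOn
  · intro p hp
    rw [interior_Icc] at hp
    obtain ⟨D, hD, _⟩ := mu_deriv hP hp.1 hp.2
    exact hD.differentiableAt.differentiableWithinAt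
  · intro p hp
    rw [interior_Icc] at hp
    obtain ⟨D, hD, hD0⟩ := mu_deriv hP hp.1 hp.2
    rw [hD.deriv]
    exact hD0

lemma crit_nonempty {P : Set (Edge n r → Bool)} (hP : IsUpperSet P) (hne : P.Nonempty)
    {a : ℝ} (ha : a ≤ 1) : (1:ℝ) ∈ {p : ℝ | 0 ≤ p ∧ p ≤ 1 ∧ a ≤ mu p P} := by
  refine ⟨zero_le_one, le_refl 1, ?_⟩
  rw [mu_one hP hne]; exact ha

lemma crit_bdd (P : Set (Edge n r → Bool)) (a : ℝ) :
    BddBelow {p : ℝ | 0 ≤ p ∧ p ≤ 1 ∧ a ≤ mu p P} := ⟨0, fun _ hp => hp.1⟩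

lemma crit_nonneg {P : Set (Edge n r → Bool)} (hP : IsUpperSet P) (hne : P.Nonempty)
    {a : ℝ} (ha : a ≤ 1) : 0 ≤ critProb a P :=
  le_csInf ⟨1, crit_nonempty hP hne ha⟩ fun _ hp => hp.1

lemma crit_le_one {P : Set (Edge n r → Bool)} (hP : IsUpperSet P) (hne : P.Nonempty)
    {a : ℝ} (ha : a ≤ 1) : critProb a P ≤ 1 :=
  csInf_le (crit_bdd P a) (crit_nonempty hP hne ha)

lemma width_le_one {P : Set (Edge n r → Bool)} (hP : IsUpperSet P) (hne : P.Nonempty)
    {ε : ℝ} (h0 : 0 < ε) (h1 : ε < 1 / 2) : width ε P ≤ 1 := by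
  unfold width
  have := crit_le_one hP hne (a := 1 - ε) (by linarith only [h0])
  have := crit_nonneg hP hne (a := ε) (by linarith only [h1])
  linarith

/-- the bound for large `n` -/
lemma width_bound {c Λ : ℝ} (hc : 0 < c) (hΛ : 0 < Λ) {P : Set (Edge n r → Bool)}
    (hP : IsUpperSet P) (hne : P.Nonempty)
    (hder : ∀ p : ℝ, 0 < p → p < 1 → ∃ D : ℝ, HasDerivAt (fun q => Ex q (ind P)) D p ∧
      Λ * (Ex p (ind P) - (Ex p (ind P)) ^ 2) ≤ c * D)
    {ε : ℝ} (h0 : 0 < ε) (h1 : ε < 1 / 2) :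
    width ε P * Λ ≤ 2 * c / ε := by
  set A := critProb ε P with hA
  set B := critProb (1 - ε) P with hB
  have hw : width ε P = B - A := rfl
  rw [hw]
  rcases le_or_gt B A with hBA | hAB
  · have : (B - A) * Λ ≤ 0 := mul_nonpos_of_nonpos_of_nonneg (by linarith only [hBA]) hΛ.le
    have h2 : 0 < 2 * c / ε := by positivity
    linarith only [this, h2]
  have hA0 : 0 ≤ A := crit_nonneg hP hne (by linarith)
  have hB1 : B ≤ 1 := crit_le_one hP hne (by linarith only [h0])
  have hmid : ∀ p ∈ Set.Ioo A B, ε ≤ mu p P ∧ mu p P ≤ 1 - ε := by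
    intro p hp
    have hp0 : 0 ≤ p := by linarith only [hA0, hp.1]
    have hp1 : p ≤ 1 := by linarith only [hB1, hp.2]
    constructor
    · obtain ⟨p', hp', hlt⟩ := exists_lt_of_csInf_lt
        ⟨1, crit_nonempty hP hne (a := ε) (by linarith only [h1])⟩ hp.1
      exact le_trans hp'.2.2 (mu_monoOn hP ⟨hp'.1, hp'.2.1⟩ ⟨hp0, hp1⟩ hlt.le)
    · by_contra hc
      push Not at hc
      have : B ≤ p := csInf_le (crit_bdd P (1 - ε)) ⟨hp0, hp1, hc.le⟩
      linarith only [this, hp.2]
  have hderiv : ∀ p ∈ interior (Set.Icc A B), ε / 2 * Λ / c ≤ deriv (fun p => mu p P) p := by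
    intro p hp
    rw [interior_Icc] at hp
    have hp0 : 0 < p := by linarith only [hA0, hp.1]
    have hp1 : p < 1 := by linarith only [hB1, hp.2]
    obtain ⟨D, hD, hDb⟩ := hder p hp0 hp1
    rw [mu_fun, hD.deriv, div_le_iff₀ hc]
    rw [← mu_eq] at hDb
    obtain ⟨hm1, hm2⟩ := hmid p hp
    have hv : ε / 2 ≤ mu p P - mu p P ^ 2 := by nlinarith only [h0, hm1, hm2]
    have : Λ * (ε / 2) ≤ Λ * (mu p P - mu p P ^ 2) := mul_le_mul_of_nonneg_left hv hΛ.le
    linarith only [hDb, this]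
  have hdiff : DifferentiableOn ℝ (fun p => mu p P) (interior (Set.Icc A B)) := by
    intro p hp
    rw [interior_Icc] at hp
    obtain ⟨D, hD, _⟩ := mu_deriv hP (lt_of_le_of_lt hA0 hp.1) (lt_of_lt_of_le hp.2 hB1)
    exact hD.differentiableAt.differentiableWithinAt
  have hmvt := Convex.mul_sub_le_image_sub_of_le_deriv (convex_Icc A B)
    (f := fun p => mu p P) (mu_continuous P).continuousOn hdiff
    hderiv A ⟨le_refl A, hAB.le⟩ B ⟨hAB.le, le_refl B⟩ hAB.le
  have hBu : mu B P ≤ 1 := mu_le_one (by linarith only [hAB, hA0]) hB1 P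
  have hAl : 0 ≤ mu A P := mu_nonneg hA0 (by linarith only [hAB, hB1]) P
  have h3 : ε / 2 * Λ / c * (B - A) ≤ 1 := by linarith only [hmvt, hBu, hAl]
  rw [le_div_iff₀ h0]
  have h4 : ε / 2 * Λ / c * (B - A) = (B - A) * Λ * ε / (2 * c) := by
    field_simp
  rw [h4, div_le_one (by positivity)] at h3
  exact h3

end

theorem main : ∀ r : ℕ, 2 ≤ r → ∀ ε : ℝ, 0 < ε → ε < 1 / 2 →
    ∃ C : ℝ, ∀ n : ℕ, r ≤ n → ∀ P : Set (Edge n r → Bool),
      IsProperty P → IsUpperSet P → P.Nonempty → P ≠ Set.univ →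
        width ε P ≤ C * (Real.log n) ^ (-((r : ℝ) / ((r : ℝ) - 1))) := by
  intro r hr ε h0 h1
  obtain ⟨n0, hn02, hn0⟩ := deriv_lower hr
  have hr2 : (2:ℝ) ≤ r := by exact_mod_cast hr
  have hr1 : (0:ℝ) < (r:ℝ) - 1 := by linarith only [hr2]
  have hr0 : (0:ℝ) < r := by linarith only [hr2]
  have hα2 : (r : ℝ) / ((r : ℝ) - 1) ≤ 2 := by rw [div_le_iff₀ hr1]; linarith only [hr2]
  have hα0 : 0 < (r : ℝ) / ((r : ℝ) - 1) := by (clear * - hr hr1; positivity)
  refine ⟨2 * (257 * r) / ε + (1 + Real.log n0) ^ 2, ?_⟩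
  intro n hrn P hinv hP hne _
  have hn2 : (2:ℝ) ≤ n := by exact_mod_cast (le_trans hr hrn)
  have hl0 : 0 < Real.log n := Real.log_pos (by linarith only [hn2])
  have hlα0 : 0 < Real.log n ^ ((r : ℝ) / ((r : ℝ) - 1)) := Real.rpow_pos_of_pos hl0 _
  rw [Real.rpow_neg hl0.le, ← div_eq_mul_inv, le_div_iff₀ hlα0]
  by_cases hn : n0 ≤ n
  · have := width_bound (c := 257 * r) (by positivity) hlα0 hP hne
      (hn0 n hn (ind P) (ind_bool P) (fun x y h => ind_mono hP h) (ind_inv hinv)) h0 h1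
    have h2 : 0 ≤ (1 + Real.log n0) ^ 2 := sq_nonneg _
    linarith only [this, h2]
  · push Not at hn
    have hw := width_le_one hP hne h0 h1
    have hlog : Real.log n ≤ Real.log n0 := by
      apply Real.log_le_log (by linarith only [hn2])
      exact_mod_cast hn.le
    have h3 : Real.log n ^ ((r : ℝ) / ((r : ℝ) - 1)) ≤ (1 + Real.log n0) ^ 2 := by
      calc Real.log n ^ ((r : ℝ) / ((r : ℝ) - 1))
          ≤ (1 + Real.log n0) ^ ((r : ℝ) / ((r : ℝ) - 1)) :=
            Real.rpow_le_rpow hl0.le (by linarith only [hlog]) hα0.le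
        _ ≤ (1 + Real.log n0) ^ (2:ℝ) :=
            Real.rpow_le_rpow_of_exponent_le (by linarith only [hl0, hlog]) hα2
        _ = (1 + Real.log n0) ^ 2 := Real.rpow_two _
    have h4 : 0 < 2 * (257 * r) / ε := by positivity
    have h5 : width ε P * Real.log n ^ ((r : ℝ) / ((r : ℝ) - 1)) ≤
        1 * Real.log n ^ ((r : ℝ) / ((r : ℝ) - 1)) := mul_le_mul_of_nonneg_right hw hlα0.le
    linarith only [h3, h4, h5]

end Vale.Agent.P063
end
end

section

section

set_option autoImplicit false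
set_option linter.unusedSectionVars false
set_option linter.unusedVariables false

namespace Vale.Agent.P063

open Finset

section lower

variable {ι : Type*} [Fintype ι] [DecidableEq ι]

/-- derivative in terms of pivotal edges -/
lemma fc_single_eq {p : ℝ} (h0 : 0 < p) (h1 : p < 1) (f : (ι → Bool) → ℝ) (i : ι) :
    p * ((1 / Real.sqrt (p * (1 - p))) * fc p f {i})
      = Ex p (fun x => if x i then f x - f (Function.update x i false) else 0) := by
  have hs : 0 < p * (1 - p) := mul_pos h0 (by linarith)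
  have hspos : 0 < Real.sqrt (p * (1 - p)) := Real.sqrt_pos.2 hs
  have hss : Real.sqrt (p * (1 - p)) * Real.sqrt (p * (1 - p)) = p * (1 - p) :=
    Real.mul_self_sqrt hs.le
  have h3 : (1 - p) ≠ 0 := by linarith
  have hp : p ≠ 0 := h0.ne'
  have e1 : phi p true = (1 - p) / Real.sqrt (p * (1 - p)) := by unfold phi; simp only [↓reduceIte]
  have e2 : phi p false = - p / Real.sqrt (p * (1 - p)) := by unfold phi; simp only [Bool.false_eq_true, ↓reduceIte, zero_sub]
  unfold fc
  rw [← Ex_avg p {i} (fun x => f x * chi p {i} x),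
    ← Ex_avg p {i} (fun x => if x i then f x - f (Function.update x i false) else 0),
    ← Ex_mul_left, ← Ex_mul_left]
  congr 1
  funext x
  rw [avg_single, avg_single]
  simp only [chi, Finset.prod_singleton, Function.update_self, Function.update_idem]
  rw [e1, e2]
  generalize f (Function.update x i true) = a
  generalize f (Function.update x i false) = b
  generalize Real.sqrt (p * (1 - p)) = s at *
  have : p * (1 / s * (p * (a * ((1 - p) / s)) + (1 - p) * (b * (-p / s))))
      = p * (p * (1 - p) * (a - b)) / (s * s) := by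
    field_simp
    ring
  rw [this, hss]
  simp only [↓reduceIte, Bool.false_eq_true, mul_zero, add_zero]
  (clear * - h3 hp; field_simp)

/-- If every element contains an element with at most `m` coordinates set, then
`p g'(p) ≤ m g(p)`. -/
lemma deriv_le {p : ℝ} (h0 : 0 < p) (h1 : p < 1) (f : (ι → Bool) → ℝ)
    (hf : ∀ x, f x = 0 ∨ f x = 1) (m : ℕ)
    (hm : ∀ x, f x = 1 → ∃ T : Finset ι, T.card ≤ m ∧ (∀ i ∈ T, x i = true) ∧
      ∀ y : ι → Bool, (∀ i ∈ T, y i = true) → f y = 1) :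
    ∃ D : ℝ, HasDerivAt (fun q => Ex q f) D p ∧ p * D ≤ m * Ex p f := by
  refine ⟨_, hasDerivAt_Ex h0 h1 f, ?_⟩
  have e : p * ((1 / Real.sqrt (p * (1 - p))) * ∑ i, fc p f {i})
      = Ex p (fun x => ∑ i, if x i then f x - f (Function.update x i false) else 0) := by
    rw [Ex_sum, Finset.mul_sum, Finset.mul_sum]
    exact Finset.sum_congr rfl fun i _ => fc_single_eq h0 h1 f i
  rw [e, ← Ex_mul_left]
  refine Ex_mono h0.le h1.le fun x => ?_
  have hfn : ∀ y, 0 ≤ f y := fun y => by rcases hf y with h | h <;> simp [h]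
  rcases hf x with hx | hx
  · rw [hx, mul_zero]
    refine Finset.sum_nonpos fun i _ => ?_
    split_ifs
    · have := hfn (Function.update x i false); linarith only [this]
    · exact le_refl _
  · obtain ⟨T, hT, hxT, hyT⟩ := hm x hx
    rw [hx, mul_one]
    calc ∑ i, (if x i then 1 - f (Function.update x i false) else 0)
        ≤ ∑ i, (if i ∈ T then (1:ℝ) else 0) := by
          refine Finset.sum_le_sum fun i _ => ?_
          by_cases hi : i ∈ T
          · rw [if_pos hi]
            split_ifs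
            · have := hfn (Function.update x i false); linarith only [this]
            · norm_num
          · rw [if_neg hi]
            have h4 : f (Function.update x i false) = 1 := by
              apply hyT
              intro k hk
              have hki : k ≠ i := fun h => hi (h ▸ hk)
              rw [Function.update_of_ne hki]
              exact hxT k hk
            rw [h4]
            split_ifs <;> simp
      _ = T.card := by rw [Finset.sum_ite_mem, Finset.univ_inter]; simp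
      _ ≤ m := by exact_mod_cast hT

/-- probability that all coordinates in `T` are set -/
lemma Ex_all (p : ℝ) (T : Finset ι) :
    Ex p (fun x => if ∀ i ∈ T, x i = true then 1 else 0) = p ^ T.card := by
  have e : (fun x : ι → Bool => if ∀ i ∈ T, x i = true then (1:ℝ) else 0)
      = fun x => ∏ i, ((fun i b => if i ∈ T then (if b = true then (1:ℝ) else 0) else 1)
        i (x i)) := by
    funext x
    by_cases h : ∀ i ∈ T, x i = true
    · rw [if_pos h]
      symm
      apply Finset.prod_eq_one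
      intro i _
      by_cases hi : i ∈ T
      · simp [hi, h i hi]
      · simp [hi]
    · rw [if_neg h]
      push Not at h
      obtain ⟨i, hi, hxi⟩ := h
      symm
      exact Finset.prod_eq_zero (Finset.mem_univ i) (by simp [hi, hxi])
  rw [e, Ex_prod p (fun i b => if i ∈ T then (if b = true then (1:ℝ) else 0) else 1)]
  have : ∀ i : ι, (p * (if i ∈ T then (if true = true then (1:ℝ) else 0) else 1)
      + (1 - p) * (if i ∈ T then (if false = true then (1:ℝ) else 0) else 1))
      = if i ∈ T then p else 1 := by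
    intro i
    by_cases hi : i ∈ T <;> simp [hi]
  rw [Finset.prod_congr rfl (fun i _ => this i), Finset.prod_ite_mem, Finset.univ_inter,
    Finset.prod_const]

end lower

/-- generic lower bound for the width -/
lemma width_lower {g : ℝ → ℝ} {ε : ℝ} {m : ℕ} (hε0 : 0 < ε) (hε1 : ε < 1 / 2) (hm : 0 < m)
    (hg1 : g 1 = 1) (hgc : Continuous g) (hgm : MonotoneOn g (Set.Icc 0 1))
    (hhalf : g (1 / 2) < ε)
    (hD : ∀ p, 0 < p → p < 1 → ∃ D, HasDerivAt g D p ∧ p * D ≤ m * g p) :
    Real.log ((1 - ε) / ε) / (2 * m)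
      ≤ sInf {p : ℝ | 0 ≤ p ∧ p ≤ 1 ∧ 1 - ε ≤ g p} - sInf {p : ℝ | 0 ≤ p ∧ p ≤ 1 ∧ ε ≤ g p} := by
  have hne : ∀ t : ℝ, t ≤ 1 → ({p : ℝ | 0 ≤ p ∧ p ≤ 1 ∧ t ≤ g p}).Nonempty := fun t ht =>
    ⟨1, by norm_num, le_refl _, by rw [hg1]; exact ht⟩
  have hbdd : ∀ t : ℝ, BddBelow {p : ℝ | 0 ≤ p ∧ p ≤ 1 ∧ t ≤ g p} := fun t =>
    ⟨0, fun p hp => hp.1⟩
  have hclosed : ∀ t : ℝ, IsClosed {p : ℝ | 0 ≤ p ∧ p ≤ 1 ∧ t ≤ g p} := by
    intro t
    have : {p : ℝ | 0 ≤ p ∧ p ≤ 1 ∧ t ≤ g p} = Set.Ici 0 ∩ (Set.Iic 1 ∩ {p | t ≤ g p}) := by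
      ext p; simp only [Set.mem_ofPred_eq, Set.mem_inter_iff, Set.mem_Ici, Set.mem_Iic]
    rw [this]
    exact isClosed_Ici.inter (isClosed_Iic.inter (isClosed_le continuous_const hgc))
  set a := sInf {p : ℝ | 0 ≤ p ∧ p ≤ 1 ∧ ε ≤ g p} with ha
  set b := sInf {p : ℝ | 0 ≤ p ∧ p ≤ 1 ∧ 1 - ε ≤ g p} with hb
  have ha_mem : 0 ≤ a ∧ a ≤ 1 ∧ ε ≤ g a :=
    (hclosed ε).csInf_mem (hne ε (by linarith only [hε1])) (hbdd ε)
  have hb_mem : 0 ≤ b ∧ b ≤ 1 ∧ 1 - ε ≤ g b :=
    (hclosed (1 - ε)).csInf_mem (hne (1 - ε) (by linarith only [hε0])) (hbdd (1 - ε))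
  have hab : a ≤ b := by
    rw [ha, hb]
    refine csInf_le_csInf (hbdd ε) (hne (1 - ε) (by linarith only [hε0])) ?_
    intro p hp
    exact ⟨hp.1, hp.2.1, by linarith only [hε1, hp.2.2]⟩
  have ha2 : 1 / 2 < a := by
    by_contra hcon
    rw [not_lt] at hcon
    have := hgm ⟨ha_mem.1, ha_mem.2.1⟩ ⟨by norm_num, by norm_num⟩ hcon
    linarith only [hhalf, ha_mem, this]
  have hga : g a ≤ ε := by
    by_contra hcon
    rw [not_le] at hcon
    have hopen : IsOpen {p : ℝ | ε < g p} := isOpen_lt continuous_const hgc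
    obtain ⟨δ, hδ, hball⟩ := Metric.isOpen_iff.1 hopen a hcon
    have h1 : max (a - δ / 2) 0 < a := by
      apply max_lt <;> linarith only [ha2, hδ]
    have hmem : max (a - δ / 2) 0 ∈ Metric.ball a δ := by
      rw [Metric.mem_ball, Real.dist_eq, abs_sub_comm, abs_of_pos (by linarith only [h1])]
      have := le_max_left (a - δ / 2) 0
      linarith only [h1, this]
    have h2 : ε < g (max (a - δ / 2) 0) := hball hmem
    have h3 : a ≤ max (a - δ / 2) 0 := by
      rw [ha]
      exact csInf_le (hbdd ε) ⟨le_max_right _ _, by linarith only [ha_mem, h1], h2.le⟩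
    linarith only [h1, h3]
  have hmpos : (0 : ℝ) < m := by exact_mod_cast hm
  -- g(b)/b^m ≤ g(a)/a^m
  have hanti : AntitoneOn (fun p => g p / p ^ m) (Set.Icc a b) := by
    refine antitoneOn_of_deriv_nonpos (convex_Icc a b) ?_ ?_ ?_
    · refine ContinuousOn.div hgc.continuousOn (continuous_pow m).continuousOn ?_
      intro x hx
      have : 0 < x := by linarith only [ha2, hx.1]
      (clear * - this; positivity)
    · intro x hx
      rw [interior_Icc] at hx
      have hx0 : 0 < x := by linarith only [ha2, hx.1]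
      have hx1 : x < 1 := lt_of_lt_of_le hx.2 hb_mem.2.1
      obtain ⟨D, hD', -⟩ := hD x hx0 hx1
      exact (hD'.differentiableAt.div (differentiableAt_pow m) (by (clear * - hx0; positivity))).differentiableWithinAt
    · intro x hx
      rw [interior_Icc] at hx
      have hx0 : 0 < x := by linarith only [ha2, hx.1]
      have hx1 : x < 1 := lt_of_lt_of_le hx.2 hb_mem.2.1
      obtain ⟨D, hD', hle⟩ := hD x hx0 hx1
      have hdiv := hD'.div (hasDerivAt_pow m x) (by (clear * - hx0; positivity))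
      rw [show (fun p => g p / p ^ m) = g / (fun p => p ^ m) from rfl, hdiv.deriv]
      apply div_nonpos_of_nonpos_of_nonneg _ (by (clear * - hx0; positivity))
      obtain ⟨k, rfl⟩ : ∃ k, m = k + 1 := ⟨m - 1, by (clear * - hm; omega)⟩
      have hxk : 0 ≤ x ^ k := by (clear * - hx0; positivity)
      simp only [Nat.add_sub_cancel]
      have : D * x ^ (k + 1) - g x * (((k + 1 : ℕ) : ℝ) * x ^ k)
          = x ^ k * (x * D - ((k + 1 : ℕ) : ℝ) * g x) := by ring
      rw [this]
      exact mul_nonpos_of_nonneg_of_nonpos hxk (by linarith only [hle])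
  have h1 := hanti (Set.left_mem_Icc.2 hab) (Set.right_mem_Icc.2 hab) hab
  have hapos : 0 < a := by linarith only [ha2]
  have hbpos : 0 < b := by linarith only [hab, ha2]
  simp only at h1
  rw [div_le_div_iff₀ (by (clear * - hbpos; positivity)) (by (clear * - ha2; positivity))] at h1
  -- (1-ε) a^m ≤ ε b^m
  have h2 : (1 - ε) * a ^ m ≤ ε * b ^ m := by
    calc (1 - ε) * a ^ m ≤ g b * a ^ m := mul_le_mul_of_nonneg_right hb_mem.2.2 (by positivity)
      _ ≤ g a * b ^ m := h1
      _ ≤ ε * b ^ m := mul_le_mul_of_nonneg_right hga (by (clear * - hbpos; positivity))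
  have h3 : (1 - ε) / ε ≤ (b / a) ^ m := by
    rw [div_pow, div_le_div_iff₀ hε0 (by (clear * - ha2; positivity))]
    linarith only [h2]
  have h4 : Real.log ((1 - ε) / ε) ≤ m * Real.log (b / a) := by
    rw [← Real.log_pow]
    refine Real.log_le_log ?_ h3
    exact div_pos (by linarith only [hε1]) hε0
  have h5 : Real.log (b / a) ≤ b / a - 1 := Real.log_le_sub_one_of_pos (by (clear * - hbpos ha2; positivity))
  have h6 : b / a - 1 ≤ 2 * (b - a) := by
    rw [div_sub_one hapos.ne', div_le_iff₀ hapos]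
    nlinarith only [hab, ha2]
  rw [div_le_iff₀ (by positivity)]
  calc Real.log ((1 - ε) / ε) ≤ m * Real.log (b / a) := h4
    _ ≤ m * (2 * (b - a)) := mul_le_mul_of_nonneg_left (h5.trans h6) hmpos.le
    _ = (b - a) * (2 * m) := by ring

end Vale.Agent.P063
end
end

section

section

set_option autoImplicit false
set_option linter.unusedSectionVars false
set_option linter.unusedVariables false

namespace Vale.Agent.P063

open Finset

section clique

variable {n r : ℕ}

/-- containing a complete hypergraph on `k` vertices -/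
def hasClique (n r k : ℕ) : Set (Edge n r → Bool) :=
  {x | ∃ K : Finset (Fin n), K.card = k ∧ ∀ e : Edge n r, e.1 ⊆ K → x e = true}

/-- edges inside `K` -/
def inside (r : ℕ) (K : Finset (Fin n)) : Finset (Edge n r) :=
  Finset.univ.filter (fun e => e.1 ⊆ K)

lemma card_inside (K : Finset (Fin n)) : (inside r K).card = K.card.choose r := by
  rw [← Finset.card_powersetCard r K]
  refine Finset.card_bij (fun e _ => e.1) ?_ ?_ ?_
  · intro e he
    simp only [inside, Finset.mem_filter, Finset.mem_univ, true_and] at he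
    rw [Finset.mem_powersetCard]
    exact ⟨he, e.2⟩
  · intro e _ e' _ h
    exact Subtype.ext h
  · intro s hs
    rw [Finset.mem_powersetCard] at hs
    exact ⟨⟨s, hs.2⟩, by simp only [inside, mem_filter, mem_univ, hs.1, and_self], rfl⟩

lemma clique_property (k : ℕ) : IsProperty (hasClique n r k) := by
  have key : ∀ (s : Equiv.Perm (Fin n)) (x : Edge n r → Bool),
      (fun e => x (permEdge s e)) ∈ hasClique n r k → x ∈ hasClique n r k := by
    rintro s x ⟨K, hK, hx⟩
    refine ⟨K.map s.toEmbedding, by rw [Finset.card_map]; exact hK, ?_⟩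
    intro e he
    have h1 : permEdge s (permEdge s.symm e) = e := by
      apply Subtype.ext
      ext a
      simp only [permEdge, mem_map_equiv, mem_map_mk]
    have h2 : x (permEdge s (permEdge s.symm e)) = true := hx (permEdge s.symm e) (by
      intro a ha
      simp only [permEdge, Finset.mem_map_equiv, Equiv.symm_symm] at ha
      have h3 := he ha
      rw [Finset.mem_map_equiv] at h3
      simpa using h3)
    rw [h1] at h2
    exact h2
  intro s x
  constructor
  · exact key s x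
  · intro hx
    apply key s.symm
    have : (fun e => (fun e => x (permEdge s e)) (permEdge s.symm e)) = x := by
      funext e
      have h1 : permEdge s (permEdge s.symm e) = e := by
        apply Subtype.ext
        ext a
        simp only [permEdge, mem_map_equiv, mem_map_mk]
      simp only [h1]
    rw [this]
    exact hx

lemma clique_upper (k : ℕ) : IsUpperSet (hasClique n r k) := by
  rintro x y hxy ⟨K, hK, hx⟩
  refine ⟨K, hK, fun e he => ?_⟩
  have h1 := hxy e
  rw [hx e he] at h1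
  exact top_le_iff.1 h1

lemma clique_nonempty {k : ℕ} (hk : k ≤ n) : (hasClique n r k).Nonempty := by
  obtain ⟨K, -, hK⟩ := Finset.exists_subset_card_eq (s := (Finset.univ : Finset (Fin n)))
    (n := k) (by simpa only [card_univ, Fintype.card_fin] using hk)
  exact ⟨fun _ => true, K, hK, fun _ _ => rfl⟩

lemma clique_ne_univ {k : ℕ} (hk : r ≤ k) : hasClique n r k ≠ Set.univ := by
  intro h
  have : (fun _ => false : Edge n r → Bool) ∈ hasClique n r k := by rw [h]; trivial
  obtain ⟨K, hK, hx⟩ := this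
  obtain ⟨s, hs, hcard⟩ := Finset.exists_subset_card_eq (s := K) (n := r) (by omega)
  have := hx ⟨s, hcard⟩ hs
  simp at this

lemma clique_min {k : ℕ} (x : Edge n r → Bool) (hx : ind (hasClique n r k) x = 1) :
    ∃ T : Finset (Edge n r), T.card ≤ k.choose r ∧ (∀ i ∈ T, x i = true) ∧
      ∀ y : Edge n r → Bool, (∀ i ∈ T, y i = true) → ind (hasClique n r k) y = 1 := by
  have hx' : x ∈ hasClique n r k := by
    by_contra h
    unfold ind at hx
    rw [if_neg h] at hx
    norm_num at hx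
  obtain ⟨K, hK, hxK⟩ := hx'
  refine ⟨inside r K, ?_, ?_, ?_⟩
  · rw [card_inside, hK]
  · intro e he
    simp only [inside, Finset.mem_filter, Finset.mem_univ, true_and] at he
    exact hxK e he
  · intro y hy
    have : y ∈ hasClique n r k := by
      refine ⟨K, hK, fun e he => hy e ?_⟩
      simp only [inside, Finset.mem_filter, Finset.mem_univ, true_and]
      exact he
    unfold ind
    rw [if_pos this]

/-- first moment bound -/
lemma clique_first_moment {p : ℝ} (h0 : 0 ≤ p) (h1 : p ≤ 1) (k : ℕ) :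
    mu p (hasClique n r k) ≤ (n : ℝ) ^ k * p ^ (k.choose r) := by
  rw [mu_eq]
  have hpt : ∀ x : Edge n r → Bool, ind (hasClique n r k) x
      ≤ ∑ K ∈ (Finset.univ : Finset (Fin n)).powersetCard k,
        (if ∀ i ∈ inside r K, x i = true then (1:ℝ) else 0) := by
    intro x
    have hnn : ∀ K ∈ (Finset.univ : Finset (Fin n)).powersetCard k,
        (0:ℝ) ≤ (if ∀ i ∈ inside r K, x i = true then (1:ℝ) else 0) := by
      intro K _; split_ifs <;> norm_num
    by_cases hx : x ∈ hasClique n r k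
    · obtain ⟨K, hK, hxK⟩ := hx
      have h2 := Finset.single_le_sum hnn
        (Finset.mem_powersetCard.2 ⟨Finset.subset_univ K, hK⟩)
      have h3 : (∀ i ∈ inside r K, x i = true) := by
        intro e he
        simp only [inside, Finset.mem_filter, Finset.mem_univ, true_and] at he
        exact hxK e he
      rw [if_pos h3] at h2
      rcases ind_bool (hasClique n r k) x with h | h <;> rw [h]
      · exact le_trans zero_le_one h2
      · exact h2
    · unfold ind
      rw [if_neg hx]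
      exact Finset.sum_nonneg hnn
  calc Ex p (ind (hasClique n r k)) ≤ _ := Ex_mono h0 h1 hpt
    _ = ∑ K ∈ (Finset.univ : Finset (Fin n)).powersetCard k, p ^ (k.choose r) := by
        rw [Ex_sum]
        refine Finset.sum_congr rfl fun K hK => ?_
        rw [Ex_all, card_inside, (Finset.mem_powersetCard.1 hK).2]
    _ = (n.choose k : ℝ) * p ^ (k.choose r) := by
        rw [Finset.sum_const, Finset.card_powersetCard, nsmul_eq_mul]
        simp only [card_univ, Fintype.card_fin]
    _ ≤ (n : ℝ) ^ k * p ^ (k.choose r) := by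
        apply mul_le_mul_of_nonneg_right _ (by positivity)
        exact_mod_cast Nat.choose_le_pow n k

/-- width of the clique property from below -/
lemma clique_width {k : ℕ} (hrk : r ≤ k) (hkn : k ≤ n) {ε : ℝ} (hε0 : 0 < ε) (hε1 : ε < 1 / 2)
    (hfm : (n : ℝ) ^ k * (1 / 2) ^ (k.choose r) < ε) :
    Real.log ((1 - ε) / ε) / (2 * (k.choose r : ℝ)) ≤ width ε (hasClique n r k) := by
  unfold width critProb
  refine width_lower (g := fun p => mu p (hasClique n r k)) hε0 hε1
    (Nat.choose_pos hrk) (mu_one (clique_upper k) (clique_nonempty hkn))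
    (mu_continuous _) (mu_monoOn (clique_upper k)) ?_ ?_
  · exact lt_of_le_of_lt (clique_first_moment (by norm_num) (by norm_num) k) hfm
  · intro p h0 h1
    obtain ⟨D, hD, hle⟩ := deriv_le h0 h1 (ind (hasClique n r k)) (ind_bool _) (k.choose r)
      (fun x hx => clique_min x hx)
    refine ⟨D, ?_, ?_⟩
    · rw [mu_fun]; exact hD
    · simp only [mu_eq]; exact hle

end clique

lemma eventually_big (B : ℝ) (hB : 0 < B) (δ : ℝ) (hδ : 0 < δ) :
    ∃ n0 : ℕ, 2 ≤ n0 ∧ ∀ n : ℕ, n0 ≤ n →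
    1 ≤ Real.log n ∧ B * Real.log n ≤ n ∧ 1 / δ < n := by
  have h1 : Filter.Tendsto (fun n : ℕ => Real.log n) Filter.atTop Filter.atTop :=
    Real.tendsto_log_atTop.comp tendsto_natCast_atTop_atTop
  have h2 : ∀ᶠ n : ℕ in Filter.atTop, (1:ℝ) ≤ Real.log n := h1.eventually_ge_atTop 1
  have h3 : ∀ᶠ n : ℕ in Filter.atTop, 1 / δ < (n:ℝ) :=
    tendsto_natCast_atTop_atTop.eventually_gt_atTop _
  have h4 : ∀ᶠ x : ℝ in Filter.atTop, |Real.log x| ≤ (1 / B) * |x| := by
    have := Real.isLittleO_log_id_atTop.bound (show (0:ℝ) < 1 / B by positivity)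
    simpa only [one_div, Filter.eventually_atTop, Real.norm_eq_abs, id_eq] using this
  have h5 : ∀ᶠ n : ℕ in Filter.atTop, |Real.log n| ≤ (1 / B) * |(n:ℝ)| :=
    tendsto_natCast_atTop_atTop.eventually h4
  obtain ⟨n0, hn0⟩ := Filter.eventually_atTop.1 (h2.and (h3.and h5))
  refine ⟨max n0 2, le_max_right _ _, fun n hn => ?_⟩
  obtain ⟨a, b, c⟩ := hn0 n (le_trans (le_max_left _ _) hn)
  refine ⟨a, ?_, b⟩
  have hn0' : (0:ℝ) ≤ n := Nat.cast_nonneg n
  rw [abs_of_nonneg (by linarith only [a]), abs_of_nonneg hn0'] at c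
  rw [one_div, inv_mul_eq_div, le_div_iff₀ hB] at c
  linarith only [c]

lemma first_moment_aux {r n j k : ℕ} (hr : 2 ≤ r) (hj1 : 1 ≤ j) (hk : k = j + (r - 1))
    {ε : ℝ} (hε0 : 0 < ε) (hnε : 1 / ε < n) (hl1 : 1 ≤ Real.log n)
    (hjpow : 4 * r * (r.factorial : ℝ) * Real.log n ≤ (j:ℝ) ^ (r - 1)) :
    (n : ℝ) ^ k * (1 / 2) ^ (k.choose r) < ε := by
  have hr2 : (2:ℝ) ≤ r := by exact_mod_cast hr
  have hcast : ((r - 1 : ℕ) : ℝ) = (r : ℝ) - 1 := by
    rw [Nat.cast_sub (by omega)]; simp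
  set Λ := Real.log n with hΛ
  have hΛ0 : 0 < Λ := by linarith only [hl1]
  have hch : ((j:ℝ) ^ r) / r.factorial ≤ (k.choose r : ℝ) := by
    have := Nat.pow_le_choose (α := ℝ) r k
    have h2 : k + 1 - r = j := by omega
    rw [h2] at this
    exact this
  have hnpos : (0:ℝ) < n := lt_trans (by positivity) hnε
  have hjr : (1:ℝ) ≤ j := by exact_mod_cast hj1
  have hlog2 : (1:ℝ) / 2 < Real.log 2 := by
    have := Real.log_two_gt_d9; linarith only [this]
  have hjr' : (j:ℝ) ^ r = j * (j:ℝ) ^ (r - 1) := by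
    obtain ⟨q, rfl⟩ : ∃ q, r = q + 1 := ⟨r - 1, by omega⟩
    simp only [Nat.add_sub_cancel]
    ring
  have hfacpos : (0:ℝ) < (r.factorial : ℝ) := by exact_mod_cast Nat.factorial_pos r
  have hch2 : 4 * r * j * Λ ≤ (k.choose r : ℝ) := by
    refine le_trans ?_ hch
    rw [le_div_iff₀ hfacpos, hjr']
    calc 4 * r * j * Λ * (r.factorial : ℝ) = j * (4 * r * (r.factorial : ℝ) * Λ) := by ring
      _ ≤ j * (j:ℝ) ^ (r - 1) := mul_le_mul_of_nonneg_left hjpow (by positivity)
  have hrj : (1:ℝ) ≤ r * j := by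
    calc (1:ℝ) = 1 * 1 := by ring
      _ ≤ r * j := mul_le_mul (by linarith only [hr2]) hjr (by norm_num) (by linarith only [])
  have hkr : (k:ℝ) ≤ r * j := by
    rw [hk, Nat.cast_add, hcast]
    have h5 : 0 ≤ ((r:ℝ) - 1) * ((j:ℝ) - 1) := mul_nonneg (by linarith only [hr2]) (by linarith only [hjr])
    linarith only [h5]
  have hε' : -Λ < Real.log ε := by
    rw [hΛ, ← Real.log_inv]
    refine Real.log_lt_log (by (clear * - hnpos; positivity)) ?_
    rw [inv_lt_comm₀ hnpos hε0, ← one_div]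
    exact hnε
  have hlt : (k:ℝ) * Λ - (k.choose r : ℝ) * Real.log 2 < Real.log ε := by
    have e1 : (k:ℝ) * Λ ≤ r * j * Λ := mul_le_mul_of_nonneg_right hkr hΛ0.le
    have e2 : 4 * r * j * Λ * (1 / 2) ≤ (k.choose r : ℝ) * Real.log 2 :=
      mul_le_mul hch2 hlog2.le (by norm_num) (by (clear * -; positivity))
    have e3 : Λ ≤ r * j * Λ := le_mul_of_one_le_left hΛ0.le hrj
    have e4 : (k:ℝ) * Λ - (k.choose r : ℝ) * Real.log 2 ≤ - Λ := by linarith only [e1, e2, e3]
    exact lt_of_le_of_lt e4 hε'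
  have hexp : (n : ℝ) ^ k * (1 / 2) ^ (k.choose r)
      = Real.exp ((k:ℝ) * Λ - (k.choose r : ℝ) * Real.log 2) := by
    rw [Real.exp_sub, Real.exp_nat_mul, Real.exp_nat_mul, Real.exp_log hnpos,
      Real.exp_log (by norm_num : (0:ℝ) < 2)]
    rw [one_div, inv_pow, div_eq_mul_inv]
  rw [hexp]
  calc _ < Real.exp (Real.log ε) := Real.exp_lt_exp.2 hlt
    _ = ε := Real.exp_log hε0

lemma size_aux {r j k : ℕ} (hr : 2 ≤ r) (hj1 : 1 ≤ j) (hk : k = j + (r - 1)) {Y : ℝ}
    (hY : 0 < Y) (hj2 : (j:ℝ) ≤ 2 * Y ^ (1 / ((r:ℝ) - 1))) :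
    (k.choose r : ℝ) ≤ (2 * r) ^ r * Y ^ ((r:ℝ) / ((r:ℝ) - 1)) := by
  have hr2 : (2:ℝ) ≤ r := by exact_mod_cast hr
  have hcast : ((r - 1 : ℕ) : ℝ) = (r : ℝ) - 1 := by
    rw [Nat.cast_sub (by omega)]; simp
  have hjr : (1:ℝ) ≤ j := by exact_mod_cast hj1
  set t : ℝ := Y ^ (1 / ((r:ℝ) - 1)) with ht
  have ht0 : 0 < t := Real.rpow_pos_of_pos hY _
  have hkr : (k:ℝ) ≤ r * j := by
    rw [hk, Nat.cast_add, hcast]
    have h5 : 0 ≤ ((r:ℝ) - 1) * ((j:ℝ) - 1) := mul_nonneg (by linarith only [hr2]) (by linarith only [hjr])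
    linarith only [h5]
  have h1 : (k.choose r : ℝ) ≤ (k:ℝ) ^ r := by exact_mod_cast Nat.choose_le_pow k r
  have h2 : (k:ℝ) ^ r ≤ ((2 * r) * t) ^ r := by
    apply pow_le_pow_left₀ (by (clear * -; positivity))
    calc (k:ℝ) ≤ r * j := hkr
      _ ≤ r * (2 * t) := mul_le_mul_of_nonneg_left hj2 (by positivity)
      _ = 2 * r * t := by ring
  have h3 : t ^ r = Y ^ ((r:ℝ) / ((r:ℝ) - 1)) := by
    rw [ht, ← Real.rpow_natCast, ← Real.rpow_mul hY.le]
    congr 1
    ring
  calc (k.choose r : ℝ) ≤ ((2 * r) * t) ^ r := h1.trans h2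
    _ = _ := by rw [mul_pow, h3]

lemma k_le_aux {r n j k : ℕ} (hr : 2 ≤ r) (hj1 : 1 ≤ j) (hk : k = j + (r - 1)) {Y : ℝ}
    (hY : 1 ≤ Y) (hj2 : (j:ℝ) ≤ 2 * Y ^ (1 / ((r:ℝ) - 1))) (hn : 2 * r * Y ≤ n) : k ≤ n := by
  have hr2 : (2:ℝ) ≤ r := by exact_mod_cast hr
  have hr1 : (0:ℝ) < (r:ℝ) - 1 := by linarith only [hr2]
  have hcast : ((r - 1 : ℕ) : ℝ) = (r : ℝ) - 1 := by
    rw [Nat.cast_sub (by omega)]; simp
  have hjr : (1:ℝ) ≤ j := by exact_mod_cast hj1
  have hkr : (k:ℝ) ≤ r * j := by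
    rw [hk, Nat.cast_add, hcast]
    have h5 : 0 ≤ ((r:ℝ) - 1) * ((j:ℝ) - 1) := mul_nonneg (by linarith only [hr2]) (by linarith only [hjr])
    linarith only [h5]
  have h2 : Y ^ (1 / ((r:ℝ) - 1)) ≤ Y := by
    calc Y ^ (1 / ((r:ℝ) - 1)) ≤ Y ^ (1:ℝ) := by
          apply Real.rpow_le_rpow_of_exponent_le hY
          rw [div_le_one hr1]; linarith only [hr2]
      _ = Y := Real.rpow_one _
  have h1 : (k : ℝ) ≤ n := by
    calc (k:ℝ) ≤ r * j := hkr
      _ ≤ r * (2 * Y) := mul_le_mul_of_nonneg_left (by linarith only [hj2, h2]) (by positivity)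
      _ = 2 * r * Y := by ring
      _ ≤ n := hn
  exact_mod_cast h1

/-- choice of the clique size -/
lemma clique_params {r : ℕ} (hr : 2 ≤ r) {ε : ℝ} (hε0 : 0 < ε) :
    ∃ M : ℝ, 0 < M ∧ ∃ n0 : ℕ, 2 ≤ n0 ∧ ∀ n : ℕ, n0 ≤ n → ∃ k : ℕ, r ≤ k ∧ k ≤ n ∧
      (n : ℝ) ^ k * (1 / 2) ^ (k.choose r) < ε ∧
      (k.choose r : ℝ) ≤ M * Real.log n ^ ((r : ℝ) / ((r : ℝ) - 1)) := by
  have hr2 : (2:ℝ) ≤ r := by exact_mod_cast hr
  have hr1 : (0:ℝ) < (r:ℝ) - 1 := by linarith only [hr2]
  set A : ℝ := 4 * r * (r.factorial : ℝ) with hA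
  have hfac : (1:ℝ) ≤ (r.factorial : ℝ) := by
    exact_mod_cast Nat.one_le_iff_ne_zero.2 (Nat.factorial_ne_zero r)
  have hA1 : 1 ≤ A := by
    rw [hA]
    calc (1:ℝ) = 1 * 1 := by ring
      _ ≤ (4 * r) * (r.factorial : ℝ) :=
        mul_le_mul (by linarith only [hr2]) hfac (by norm_num) (by linarith only [])
  set α : ℝ := (r : ℝ) / ((r : ℝ) - 1) with hα
  have hA0 : 0 < A := by linarith only [hA1]
  have hAα : 0 < A ^ α := Real.rpow_pos_of_pos hA0 _
  refine ⟨(2 * r) ^ r * A ^ α, by positivity, ?_⟩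
  obtain ⟨n0, hn02, hn0⟩ := eventually_big (2 * r * A) (by positivity) ε hε0
  refine ⟨n0, hn02, fun n hn => ?_⟩
  obtain ⟨hl1, hln, hnε⟩ := hn0 n hn
  have hΛ0 : 0 < Real.log n := by linarith only [hl1]
  have hAΛ1 : 1 ≤ A * Real.log n := by
    calc (1:ℝ) = 1 * 1 := by ring
      _ ≤ A * Real.log n := mul_le_mul hA1 hl1 (by norm_num) hA0.le
  have hAΛ0 : 0 < A * Real.log n := by linarith only [hAΛ1]
  have ht1 : 1 ≤ (A * Real.log n) ^ (1 / ((r:ℝ) - 1)) := Real.one_le_rpow hAΛ1 (by (clear * - hr1; positivity))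
  have hjt := Nat.le_ceil ((A * Real.log n) ^ (1 / ((r:ℝ) - 1)))
  have hj2 : ((⌈(A * Real.log n) ^ (1 / ((r:ℝ) - 1))⌉₊ : ℕ) : ℝ)
      ≤ 2 * (A * Real.log n) ^ (1 / ((r:ℝ) - 1)) := by
    have := Nat.ceil_lt_add_one (show 0 ≤ (A * Real.log n) ^ (1 / ((r:ℝ) - 1)) by linarith only [ht1])
    linarith
  set j : ℕ := ⌈(A * Real.log n) ^ (1 / ((r:ℝ) - 1))⌉₊ with hj
  have hj1 : 1 ≤ j := by
    have : (1:ℝ) ≤ j := le_trans ht1 hjt
    exact_mod_cast this
  have hcast : ((r - 1 : ℕ) : ℝ) = (r : ℝ) - 1 := by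
    rw [Nat.cast_sub (by omega)]; simp
  have htpow : ((A * Real.log n) ^ (1 / ((r:ℝ) - 1))) ^ (r - 1) = A * Real.log n := by
    rw [one_div, ← hcast]
    exact Real.rpow_inv_natCast_pow hAΛ0.le (by omega)
  have hjpow : A * Real.log n ≤ (j:ℝ) ^ (r - 1) := by
    calc A * Real.log n = ((A * Real.log n) ^ (1 / ((r:ℝ) - 1))) ^ (r - 1) := htpow.symm
      _ ≤ (j:ℝ) ^ (r - 1) := pow_le_pow_left₀ (by linarith only [ht1]) hjt _
  refine ⟨j + (r - 1), by omega, ?_, ?_, ?_⟩
  · exact k_le_aux hr hj1 rfl hAΛ1 hj2 (by rw [← mul_assoc]; exact hln)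
  · exact first_moment_aux hr hj1 rfl hε0 hnε hl1 hjpow
  · refine (size_aux hr hj1 rfl hAΛ0 hj2).trans (le_of_eq ?_)
    rw [Real.mul_rpow hA0.le hΛ0.le]
    ring

/-- Lower bound for the maximal width. -/
theorem lower {r : ℕ} (hr : 2 ≤ r) {ε : ℝ} (hε0 : 0 < ε) (hε1 : ε < 1 / 2) :
    ∃ c : ℝ, 0 < c ∧ ∃ n0 : ℕ, 2 ≤ n0 ∧ ∀ n : ℕ, n0 ≤ n → ∃ P : Set (Edge n r → Bool),
      IsProperty P ∧ IsUpperSet P ∧ P.Nonempty ∧ P ≠ Set.univ ∧
      c * Real.log n ^ (-((r : ℝ) / ((r : ℝ) - 1))) ≤ width ε P := by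
  obtain ⟨M, hM, n0, hn02, h⟩ := clique_params hr hε0
  have hlog : 0 < Real.log ((1 - ε) / ε) := by
    apply Real.log_pos
    rw [lt_div_iff₀ hε0]
    linarith only [hε1]
  refine ⟨Real.log ((1 - ε) / ε) / (2 * M), by positivity, n0, hn02, fun n hn => ?_⟩
  obtain ⟨k, hrk, hkn, hfm, hch⟩ := h n hn
  refine ⟨hasClique n r k, clique_property k, clique_upper k, clique_nonempty hkn,
    clique_ne_univ hrk, ?_⟩
  refine le_trans ?_ (clique_width hrk hkn hε0 hε1 hfm)
  have hn2 : (2:ℝ) ≤ n := by exact_mod_cast (le_trans hn02 hn)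
  have hl : 0 < Real.log n := Real.log_pos (by linarith only [hn2])
  have hchpos : (0:ℝ) < (k.choose r : ℝ) := by exact_mod_cast Nat.choose_pos hrk
  rw [Real.rpow_neg hl.le]
  have hlα : 0 < Real.log n ^ ((r : ℝ) / ((r : ℝ) - 1)) := Real.rpow_pos_of_pos hl _
  rw [div_mul_eq_mul_div, div_le_div_iff₀ (by positivity) (by positivity)]
  calc Real.log ((1 - ε) / ε) * (Real.log n ^ ((r : ℝ) / ((r : ℝ) - 1)))⁻¹
        * (2 * (k.choose r : ℝ))
      ≤ Real.log ((1 - ε) / ε) * (Real.log n ^ ((r : ℝ) / ((r : ℝ) - 1)))⁻¹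
        * (2 * (M * Real.log n ^ ((r : ℝ) / ((r : ℝ) - 1)))) := by
        apply mul_le_mul_of_nonneg_left _ (by positivity)
        linarith only [hch]
    _ = Real.log ((1 - ε) / ε) * (2 * M) := by
        field_simp

end Vale.Agent.P063
end
end

section

section

set_option autoImplicit false

namespace Vale.Agent.P063

lemma maxWidth_finite (r : ℕ) (ε : ℝ) (n : ℕ) :
    {w : ℝ | ∃ P : Set (Edge n r → Bool), Admissible P ∧ width ε P = w}.Finite := by
  have : {w : ℝ | ∃ P : Set (Edge n r → Bool), Admissible P ∧ width ε P = w}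
      = (fun P : Set (Edge n r → Bool) => width ε P) '' {P | Admissible P} := rfl
  rw [this]
  exact (Set.toFinite _).image _

lemma width_le_maxWidth {r n : ℕ} {ε : ℝ} {P : Set (Edge n r → Bool)} (hP : Admissible P) :
    width ε P ≤ maxWidth r ε n :=
  le_csSup (maxWidth_finite r ε n).bddAbove ⟨P, hP, rfl⟩

lemma admissible_nonempty {r n : ℕ} (ε : ℝ) (hrn : r ≤ n) :
    {w : ℝ | ∃ P : Set (Edge n r → Bool), Admissible P ∧ width ε P = w}.Nonempty :=
  ⟨_, hasClique n r r, ⟨clique_property r, clique_upper r, clique_nonempty hrn,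
    clique_ne_univ le_rfl⟩, rfl⟩

theorem exists_maxWidth {r n : ℕ} (ε : ℝ) (hrn : r ≤ n) :
    ∃ P : Set (Edge n r → Bool), Admissible P ∧ width ε P = maxWidth r ε n :=
  (admissible_nonempty ε hrn).csSup_mem (maxWidth_finite r ε n)

theorem order {r : ℕ} (hr : 2 ≤ r) {ε : ℝ} (hε0 : 0 < ε) (hε1 : ε < 1 / 2) :
    ∃ c C : ℝ, 0 < c ∧ 0 < C ∧
      (∀ n : ℕ, r ≤ n → maxWidth r ε n ≤ C * Real.log n ^ (-((r : ℝ) / ((r : ℝ) - 1)))) ∧
      (∃ n0 : ℕ, ∀ n : ℕ, n0 ≤ n →
        c * Real.log n ^ (-((r : ℝ) / ((r : ℝ) - 1))) ≤ maxWidth r ε n) := by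
  obtain ⟨C, hC⟩ := main r hr ε hε0 hε1
  obtain ⟨c, hc, n0, hn02, hlow⟩ := lower hr hε0 hε1
  refine ⟨c, max C 1, hc, lt_max_of_lt_right one_pos, ?_, n0, ?_⟩
  · intro n hn
    obtain ⟨P, hP, hw⟩ := exists_maxWidth ε hn
    rw [← hw]
    refine (hC n hn P hP.1 hP.2.1 hP.2.2.1 hP.2.2.2).trans ?_
    apply mul_le_mul_of_nonneg_right (le_max_left _ _)
    exact Real.rpow_nonneg (Real.log_natCast_nonneg n) _
  · intro n hn
    obtain ⟨P, h1, h2, h3, h4, h5⟩ := hlow n hn
    exact h5.trans (width_le_maxWidth ⟨h1, h2, h3, h4⟩)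

end Vale.Agent.P063
end
end
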